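import Vale.Agent.P182.H398.NFlow
import Vale.Agent.P182.H55.NullG

/-!
# The good bases: centrality and nilpotency off finitely many lines
-/

namespace Vale.Agent.P182.H398

open Module Matrix Vale.Agent.P182.H533 Vale.Agent.P182.B1 Vale.Agent.P182.H578
  Vale.Agent.P182.H922 Vale.Agent.P182.H588 Vale.Agent.P182.H181 Vale.Agent.P182.H983

universe u v w

variable {L : Type u} {V : Type v} {J : Type w} [Field L] [AddCommGroup V] [Module L V]
  [Fintype J] [DecidableEq J] [FiniteDimensional L V]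
  {𝒟 : Cfg L V J} {u : J → L} {t t' : J → V} {C : Core 𝒟.q (Res 𝒟 t)} {m : ℕ}
  {U : Fin m → Submodule L V} {d : Fin m → L} {p : Fin 3 → ℕ} {x y : L}

namespace NBlk

section base

variable (hG : 𝒟.Good) (hK : KRel 𝒟.arm 𝒟.q 𝒟.Ω (Tt L '' (Ku 𝒟 u : Set (J → V))))
  (B : H983.Blk 𝒟 u t t' C.W C.I U d p)

include hG hK B

/-- the operator `D` on the blocks -/
theorem D_P {D : End L C.V1}
    (hD1 : ∀ s, C.res hG.form (opr 𝒟.q (Tt L t) (Gm 𝒟.arm 𝒟.Ω s) (Tt L t')) =
      C.S1 hG.form s * D) {k : Fin m} {w : V} (hw : w ∈ U k) :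
    D (C.P hG.form w) = d k • C.P hG.form w := by
  have hq := hG.form
  rw [← sub_eq_zero]
  have hopI : ∀ a, ∀ w ∈ C.I, opr 𝒟.q (Tt L t) (Gm 𝒟.arm 𝒟.Ω a) (Tt L t') w ∈ C.I := by
    intro a w hw
    rw [← B.supI] at hw
    have h3 : (⨆ k, U k ⊓ C.I) ≤
        C.I.comap (opr 𝒟.q (Tt L t) (Gm 𝒟.arm 𝒟.Ω a) (Tt L t')) := by
      refine iSup_le fun j w hw => ?_
      rw [Submodule.mem_comap, B.op j a w hw.1]
      exact Submodule.smul_mem _ _ (SI hG B a hw.2)
    exact h3 hw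
  have h1 : D (C.P hq w) - d k • C.P hq w ∈ ⨅ a, LinearMap.ker (C.S1 hq a) := by
    rw [Submodule.mem_iInf]
    intro a
    rw [LinearMap.mem_ker, map_sub, map_smul]
    have h2 := LinearMap.congr_fun (hD1 a) (C.P hq w)
    rw [res_P hG (hopI a) (UW B k hw), B.op k a w hw, map_smul, Module.End.mul_apply] at h2
    have h3 : C.S1 hq a (C.P hq w) = C.P hq (Res 𝒟 t a w) := by
      have h4 := res_P hG (C := C) (X := Res 𝒟 t a) (fun w hw => SI hG B a hw) (UW B k hw)
      rw [C.res_S] at h4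
      exact h4
    rw [← h2, h3, sub_self]
  rw [C.iInf_ker hq (SA hG t)] at h1
  exact (Submodule.mem_bot L).mp h1

/-- the operators of the core at the base `x t + y t'` -/
theorem A_P {D : End L C.V1}
    (hD1 : ∀ s, C.res hG.form (opr 𝒟.q (Tt L t) (Gm 𝒟.arm 𝒟.Ω s) (Tt L t')) =
      C.S1 hG.form s * D) (x y : L) (a : Fin 3) :
    ∀ w ∈ C.W, ((x • (1 : End L C.V1) + y • D) ^ 2 * C.S1 hG.form a) (C.P hG.form w) =
      C.P hG.form (Res 𝒟 (tm t t' x y) a w) := by
  have hq := hG.form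
  let X : Submodule L V := LinearMap.ker
    ((((x • (1 : End L C.V1) + y • D) ^ 2 * C.S1 hq a) ∘ₗ C.P hq) -
      C.P hq ∘ₗ Res 𝒟 (tm t t' x y) a)
  have key : ∀ w ∈ C.W, w ∈ X.toAddSubgroup := by
    refine ind_W B fun k w hw => ?_
    show w ∈ X
    rw [LinearMap.mem_ker, LinearMap.sub_apply, LinearMap.comp_apply, LinearMap.comp_apply,
      sub_eq_zero]
    have h3 : C.S1 hq a (C.P hq w) = C.P hq (Res 𝒟 t a w) := by
      have h4 := res_P hG (C := C) (X := Res 𝒟 t a) (fun w hw => SI hG B a hw) (UW B k hw)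
      rw [C.res_S] at h4
      exact h4
    have h5 : ∀ v ∈ U k, (x • (1 : End L C.V1) + y • D) (C.P hq v) =
        (x + y * d k) • C.P hq v := by
      intro v hv
      rw [LinearMap.add_apply, LinearMap.smul_apply, LinearMap.smul_apply,
        Module.End.one_apply, D_P hG hK B hD1 hv]
      module
    rw [Module.End.mul_apply, h3, sq, Module.End.mul_apply, h5 _ (SU B k a hw), map_smul,
      h5 _ (SU B k a hw), Res_tm hG hK B x y hw, map_smul, smul_smul, sq]
  intro w hw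
  have h1 : w ∈ X := key w hw
  rw [LinearMap.mem_ker, LinearMap.sub_apply, sub_eq_zero] at h1
  exact h1

/-- **Centrality** at the base, from the core. -/
theorem cent_of {D : End L C.V1} (hDs : IsSA C.q1 D)
    (hD1 : ∀ s, C.res hG.form (opr 𝒟.q (Tt L t) (Gm 𝒟.arm 𝒟.Ω s) (Tt L t')) =
      C.S1 hG.form s * D)
    (hcen : ∀ M : End L C.V1,
      (∀ a, M * ((x • (1 : End L C.V1) + y • D) ^ 2 * C.S1 hG.form a) =
        (x • (1 : End L C.V1) + y • D) ^ 2 * C.S1 hG.form a * M) → M * D = D * M) :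
    Cent 𝒟 (tm t t' x y) C.W C.I U d := by
  have hq := hG.form
  intro M hMW hMI hMS i j hij v hv w hw
  have hPs : ∀ z : C.V1, z = C.P hq (z : V) := fun z => (C.P_coe hq z).symm
  have h1 : C.res hq M * D = D * C.res hq M := by
    apply hcen
    intro a
    ext z
    congr 1
    have hz := C.V1_le z.2
    have e1 : (C.res hq M * ((x • (1 : End L C.V1) + y • D) ^ 2 * C.S1 hG.form a)) z =
        C.P hq (M (Res 𝒟 (tm t t' x y) a z)) := by
      rw [Module.End.mul_apply]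
      conv_lhs => rw [hPs z]
      rw [A_P hG hK B hD1 x y a _ hz, res_P hG hMI (SWx hG hK B a hz)]
    have e2 : ((x • (1 : End L C.V1) + y • D) ^ 2 * C.S1 hG.form a * C.res hq M) z =
        C.P hq (Res 𝒟 (tm t t' x y) a (M z)) := by
      rw [Module.End.mul_apply]
      conv_lhs => rw [hPs z]
      rw [res_P hG hMI hz, A_P hG hK B hD1 x y a _ (hMW _ hz)]
    rw [e1, e2]
    exact P_congr hG (hMS a _ hz)
  have hvW := UW B i hv
  have hwW := UW B j hw
  have e1 := q1_P (C := C) hG (hMW v hvW) hwW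
  rw [← res_P hG hMI hvW] at e1
  have h2 := LinearMap.congr_fun h1 (C.P hq v)
  rw [Module.End.mul_apply, Module.End.mul_apply, D_P hG hK B hD1 hv, map_smul] at h2
  have h3 : d i * 𝒟.q (M v) w = d j * 𝒟.q (M v) w := by
    rw [← e1, ← smul_eq_mul, ← LinearMap.smul_apply, ← map_smul, h2, hDs,
      D_P hG hK B hD1 hw, map_smul, smul_eq_mul]
  have h4 : (d i - d j) * 𝒟.q (M v) w = 0 := by rw [sub_mul, h3, sub_self]
  exact (mul_eq_zero.mp h4).resolve_left (sub_ne_zero.mpr hij)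

/-- **Nilpotency** at the base, by maximality. -/
theorem nil_tm (hxy : ∀ k, x + y * d k ≠ 0)
    (hmax : ∀ C' : Core 𝒟.q (Res 𝒟 (tm t t' x y)), finrank L C'.V1 ≤ finrank L C.V1) :
    ∃ N, H533.words (Res 𝒟 (tm t t' x y)) N ≤ C.W := by
  have hq := hG.form
  have hSA : ∀ s, IsSA 𝒟.q (Res 𝒟 (tm t t' x y) s) := SA hG _
  obtain ⟨C'⟩ := H533.exists_core 𝒟.q (Res 𝒟 (tm t t' x y))
  have hWW : C.W ≤ C'.W := by
    rw [C'.hN]
    have h1 : ∀ n, C.W ≤ H533.words (Res 𝒟 (tm t t' x y)) n := by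
      intro n
      induction n with
      | zero => exact le_top
      | succ n ih =>
        rw [words_succ]
        conv_lhs => rw [← sumWx hG hK B hxy]
        exact iSup_mono fun s => Submodule.map_mono ih
    exact h1 _
  have hV1 : ∀ v : C.V1, (v : V) ∈ C'.W := fun v => hWW (C.V1_le v.2)
  set g : C.V1 →ₗ[L] C'.V1 := C'.P hq ∘ₗ C.V1.subtype with hg
  have hginj : Function.Injective g := by
    rw [← LinearMap.ker_eq_bot, LinearMap.ker_eq_bot']
    intro v hv
    apply (C.isForm hq).nondeg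
    intro w
    have h1 := C'.sub_P_mem_I hq (hV1 v)
    have h2 : C'.P hq (v : V) = 0 := hv
    rw [h2, Submodule.coe_zero, sub_zero] at h1
    exact h1.2 _ (hV1 w)
  have hgsurj : Function.Surjective g := by
    have h1 : finrank L C.V1 = finrank L C'.V1 :=
      le_antisymm (LinearMap.finrank_le_finrank_of_injective hginj) (hmax C')
    exact (LinearMap.injective_iff_surjective_of_finrank_eq_finrank h1).mp hginj
  refine ⟨C'.N, ?_⟩
  rw [← C'.hN]
  refine H55.W_le_of hq hSA C' (fun s v hv => SWx hG hK B s hv) fun w hw => ?_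
  obtain ⟨v, hv⟩ := hgsurj (C'.P hq w)
  have h1 := C'.sub_P_mem_I hq hw
  have h2 := C'.sub_P_mem_I hq (hV1 v)
  have h3 : C'.P hq (v : V) = C'.P hq w := hv
  have h4 : w - v ∈ perp 𝒟.q C'.W := by
    have h5 := Submodule.sub_mem _ h1 h2
    rw [h3, sub_sub_sub_cancel_right] at h5
    exact h5.2
  have h6 : (v : V) + (w - v) = w := by abel
  rw [← h6]
  exact Submodule.add_mem_sup (C.V1_le v.2) h4

/-- the eigenvalues of the blocks -/
theorem ne_of_unit {D : End L C.V1}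
    (hD1 : ∀ s, C.res hG.form (opr 𝒟.q (Tt L t) (Gm 𝒟.arm 𝒟.Ω s) (Tt L t')) =
      C.S1 hG.form s * D) (hu : IsUnit (x • (1 : End L C.V1) + y • D)) (k : Fin m) :
    x + y * d k ≠ 0 := by
  have hq := hG.form
  intro h0
  obtain ⟨v, hv, w, hw, hvw⟩ := B.top k 0
  apply hvw
  have h1 : (x • (1 : End L C.V1) + y • D) (C.P hq v) = 0 := by
    rw [LinearMap.add_apply, LinearMap.smul_apply, LinearMap.smul_apply,
      Module.End.one_apply, D_P hG hK B hD1 hv, smul_smul, ← add_smul, h0, zero_smul]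
  obtain ⟨g, hg⟩ := hu.exists_left_inv
  have h2 : C.P hq v = 0 := by
    have h3 := LinearMap.congr_fun hg (C.P hq v)
    rw [Module.End.mul_apply, h1, map_zero, Module.End.one_apply] at h3
    exact h3.symm
  have hw' : (Res 𝒟 t 0 ^ (p 0 - 1)) w ∈ U k := by
    have h4 : ∀ r : ℕ, (Res 𝒟 t 0 ^ r) w ∈ U k := by
      intro r
      induction r with
      | zero => simpa using hw
      | succ r ih => rw [pow_succ', Module.End.mul_apply]; exact SU B k 0 ih
    exact h4 _
  rw [← q1_P (C := C) hG (UW B k hv) (UW B k hw'), h2, map_zero, LinearMap.zero_apply]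

/-- **The good bases**: all the bases off finitely many lines. -/
theorem bases (hmax : MaxCoreU 𝒟 u t) {D : End L C.V1} (hDs : IsSA C.q1 D)
    (hD1 : ∀ s, C.res hG.form (opr 𝒟.q (Tt L t) (Gm 𝒟.arm 𝒟.Ω s) (Tt L t')) =
      C.S1 hG.form s * D) {κ : Type*} [Fintype κ] {P : κ → End L C.V1} {dd : κ → L}
    (hDP : Diag D P dd) (hPS : ∀ i a, P i * C.S1 hG.form a = C.S1 hG.form a * P i) :
    ∃ Bd : Set (L × L), Bd.Finite ∧ (∀ b ∈ Bd, b ≠ 0) ∧ ∀ x y : L,
      (∀ b ∈ Bd, b.1 * x + b.2 * y ≠ 0) → (∀ k, x + y * d k ≠ 0) ∧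
        (∃ N, H533.words (Res 𝒟 (tm t t' x y)) N ≤ C.W) ∧
        Cent 𝒟 (tm t t' x y) C.W C.I U d := by
  have hker : ∀ v : C.V1, (∀ a, C.S1 hG.form a v = 0) → v = 0 := by
    intro v hv
    have h1 : v ∈ ⨅ a, LinearMap.ker (C.S1 hG.form a) := by
      rw [Submodule.mem_iInf]
      exact fun a => LinearMap.mem_ker.2 (hv a)
    rw [C.iInf_ker hG.form (SA hG t)] at h1
    exact (Submodule.mem_bot L).mp h1
  obtain ⟨Bd, hB1, hB2, hB3⟩ := H746.central_lines hker hDP hPS
  refine ⟨Bd, hB1, hB2, fun x y hxy => ?_⟩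
  obtain ⟨-, hu, hcen⟩ := hB3 x y hxy
  have hne := fun k => ne_of_unit hG hK B hD1 hu k
  exact ⟨hne, nil_tm hG hK B hne fun C' => hmax.2 _ (tm_mem B x y) C C',
    cent_of hG hK B hDs hD1 hcen⟩

end base

end NBlk

end Vale.Agent.P182.H398
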