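import Vale.Agent.P182.H398.Nak

/-!
# Rows G7a and G7b

`n` is additive and `n (S a u) = S a (n u) + (T a (S a u) - S a (T a u))` modulo `Uj` for `u` in
`Uj`.
-/

namespace Vale.Agent.P182.H398

open Module Vale.Agent.P182.H533

section g7

variable {L V : Type*} [Field L] [AddCommGroup V] [Module L V] {S : Fin 3 → End L V}
  {I Ui Uj : Submodule L V}

/-- an induction along the words -/
theorem words_ind {m : V →+ V} {Z : Submodule L V} (span : Uj ≤ ⨆ a, Uj.map (S a))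
    (nil : ∃ n, wo S I n = ⊥) (hZ : ∀ a, ∀ v ∈ Z, S a v ∈ Z)
    (hm : ∀ u ∈ Uj, m u ∈ Z ⊔ I) (hc : ∀ u ∈ Uj, ∀ a, m (S a u) - S a (m u) ∈ Z) :
    ∀ u ∈ Uj, m u ∈ Z := by
  obtain ⟨N, hN⟩ := nil
  have key : ∀ n, ∀ u ∈ Uj, m u ∈ Z ⊔ wo S I n := by
    intro n
    induction n with
    | zero => exact hm
    | succ n ih =>
      intro u hu
      refine Submodule.iSup_induction (fun a => Uj.map (S a))
        (motive := fun u => m u ∈ Z ⊔ wo S I (n + 1)) (span hu) ?_ ?_ ?_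
      · rintro a _ ⟨u', hu', rfl⟩
        obtain ⟨y, hy, w, hw, h5⟩ := Submodule.mem_sup.mp (ih u' hu')
        have h8 : m (S a u') = (m (S a u') - S a (m u') + S a y) + S a w := by
          rw [← h5, map_add]
          abel
        rw [h8]
        exact Submodule.add_mem_sup (Submodule.add_mem _ (hc u' hu' a) (hZ a y hy))
          (mem_wo_succ hw a)
      · rw [map_zero]
        exact Submodule.zero_mem _
      · intro x y hx hy
        rw [map_add]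
        exact Submodule.add_mem _ hx hy
  intro u hu
  have h1 := key N u hu
  rwa [hN, sup_bot_eq] at h1

/-- **G7a**: a flow maps `Uj` to `Uj + Ii`. -/
theorem g7a (SI : ∀ a, ∀ v ∈ I, S a v ∈ I) (SUi : ∀ a, ∀ v ∈ Ui, S a v ∈ Ui)
    (SUj : ∀ a, ∀ v ∈ Uj, S a v ∈ Uj) (span : Uj ≤ ⨆ a, Uj.map (S a))
    (nil : ∃ n, wo S I n = ⊥) {T : Fin 3 → End L V} (hT : ∀ a, ∀ u ∈ Uj, T a u ∈ Ui)
    (hTc : ∀ a, ∀ u ∈ Uj, S a (T a u) - T a (S a u) ∈ I) {n : V →+ V}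
    (hn : ∀ u ∈ Uj, ∀ a, n (S a u) - S a (n u) - (T a (S a u) - S a (T a u)) ∈ Uj)
    (hm : ∀ u ∈ Uj, n u ∈ Uj ⊔ I) : ∀ u ∈ Uj, n u ∈ Uj ⊔ Ui ⊓ I := by
  refine words_ind span nil ?_ (fun u hu => ?_) (fun u hu a => ?_)
  · intro a v hv
    obtain ⟨x, hx, y, hy, rfl⟩ := Submodule.mem_sup.mp hv
    rw [map_add]
    exact Submodule.add_mem_sup (SUj a x hx) ⟨SUi a y hy.1, SI a y hy.2⟩
  · exact (sup_le (le_sup_left.trans le_sup_left) le_sup_right :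
      Uj ⊔ I ≤ Uj ⊔ Ui ⊓ I ⊔ I) (hm u hu)
  · have h1 : n (S a u) - S a (n u) = (n (S a u) - S a (n u) - (T a (S a u) - S a (T a u))) +
        -(S a (T a u) - T a (S a u)) := by abel
    rw [h1]
    refine Submodule.add_mem_sup (hn u hu a) (Submodule.neg_mem _ ⟨?_, hTc a u hu⟩)
    exact Submodule.sub_mem _ (SUi a _ (hT a u hu)) (hT a _ (SUj a u hu))

/-- **G7b**: two flows with the same `T` agree modulo `Uj`. -/
theorem g7b (SUj : ∀ a, ∀ v ∈ Uj, S a v ∈ Uj) (span : Uj ≤ ⨆ a, Uj.map (S a))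
    (nil : ∃ n, wo S I n = ⊥) {T : Fin 3 → End L V} {n n' : V →+ V}
    (hn : ∀ u ∈ Uj, ∀ a, n (S a u) - S a (n u) - (T a (S a u) - S a (T a u)) ∈ Uj)
    (hn' : ∀ u ∈ Uj, ∀ a, n' (S a u) - S a (n' u) - (T a (S a u) - S a (T a u)) ∈ Uj)
    (hm : ∀ u ∈ Uj, n u ∈ Uj ⊔ I) (hm' : ∀ u ∈ Uj, n' u ∈ Uj ⊔ I) :
    ∀ u ∈ Uj, n u - n' u ∈ Uj := by
  intro u hu
  have := words_ind (m := n - n') (Z := Uj) span nil SUj (fun u hu => ?_) (fun u hu a => ?_) u hu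
  · exact this
  · exact Submodule.sub_mem _ (hm u hu) (hm' u hu)
  · have h1 : (n - n') (S a u) - S a ((n - n') u) =
        (n (S a u) - S a (n u) - (T a (S a u) - S a (T a u))) -
        (n' (S a u) - S a (n' u) - (T a (S a u) - S a (T a u))) := by
      rw [AddMonoidHom.sub_apply, AddMonoidHom.sub_apply, map_sub]
      abel
    rw [h1]
    exact Submodule.sub_mem _ (hn u hu a) (hn' u hu a)

/-- the adjoint of a tensor in `Ui ⊗ Uj` kills `Uj` -/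
theorem adj_kills {q : V →ₗ[L] V →ₗ[L] L} (hq : IsForm q) {T T' : End L V}
    (hT : ∀ v, T v ∈ Ui) (hadj : ∀ u v, q (T' u) v = q u (T v))
    (hij : ∀ u ∈ Uj, ∀ v ∈ Ui, q u v = 0) {u : V} (hu : u ∈ Uj) : T' u = 0 :=
  hq.nondeg _ fun v => by rw [hadj]; exact hij u hu _ (hT v)

end g7

end Vale.Agent.P182.H398
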