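import Vale.Agent.P182.H398.G7
import Vale.Agent.P182.H578.DerU
import Vale.Agent.P182.H588.Ctx

/-!
# The commutation rule of a flow with the operators `S_a`
-/

namespace Vale.Agent.P182.H398

open Module Matrix Vale.Agent.P182.H533 Vale.Agent.P182.B1 Vale.Agent.P182.H578
  Vale.Agent.P182.H922 Vale.Agent.P182.H588

universe u v w

variable {L : Type u} {V : Type v} {J : Type w} [Field L] [AddCommGroup V] [Module L V]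
  [Fintype J] [DecidableEq J] {𝒟 : Cfg L V J} {u : J → L}

/-- the dual family on a vector -/
theorem ad_of_rel {τ t' : J → V} {d : L} {w : V} (h : ∀ l, 𝒟.q (t' l) w = d * 𝒟.q (τ l) w) :
    ad 𝒟.q (Tt L t') w = d • ad 𝒟.q (Tt L τ) w := by
  funext l
  rw [Pi.smul_apply, ad_apply, ad_apply, Tt_single, Tt_single, h, smul_eq_mul]

/-- `τ G t'^* = d S` on the vectors with `t'^* = d τ^*` -/
theorem opr_of_rel {τ t' r : J → V} {d : L} {w : V}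
    (h : ∀ l, 𝒟.q (t' l) w = d * 𝒟.q (τ l) w) (a : Fin 3) :
    opr 𝒟.q (Tt L r) (Gm 𝒟.arm 𝒟.Ω a) (Tt L t') w =
      d • opr 𝒟.q (Tt L r) (Gm 𝒟.arm 𝒟.Ω a) (Tt L τ) w := by
  rw [opr_apply, opr_apply, ad_of_rel h, Matrix.mulVec_smul, map_smul]

/-- **The commutation rule, for any `R` with `opr τ R` and `opr R τ` preserving `Uj`.** -/
theorem flow_comm (hG : 𝒟.Good) (n : H533.Conn 𝒟.q) {Y : Fin 3 → End L V}
    (hY : ∀ a, IsSk 𝒟.q (Y a)) {τ R : J → V}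
    (h1 : ∀ l, n.δ (τ l) = Y (𝒟.arm l) (τ l) + R l)
    (h2 : ∀ l, n.δ (𝒟.om τ l) = Y (𝒟.arm l) (𝒟.om τ l) + 𝒟.om R l) (a : Fin 3) (v : V) :
    n.δ (Res 𝒟 τ a v) - Res 𝒟 τ a (n.δ v) - (Y a (Res 𝒟 τ a v) - Res 𝒟 τ a (Y a v)) =
      opr 𝒟.q (Tt L τ) (Gm 𝒟.arm 𝒟.Ω a) (Tt L R) v +
        opr 𝒟.q (Tt L R) (Gm 𝒟.arm 𝒟.Ω a) (Tt L τ) v := by
  rw [conn_Res hG n (hY a) (a := a) (fun l hl => by rw [h1, hl])
    (fun l hl => by rw [h2, hl]) v]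
  abel

/-- **The commutation rule on a block.** -/
theorem flow_hn (hG : 𝒟.Good) (hK : KRel 𝒟.arm 𝒟.q 𝒟.Ω (Tt L '' (Ku 𝒟 u : Set (J → V))))
    (n : H533.Conn 𝒟.q) {Y : Fin 3 → End L V}
    (hY : ∀ a, IsSk 𝒟.q (Y a)) {τ t' R : J → V} (hτ : τ ∈ Ku 𝒟 u) (hR : R ∈ Ku 𝒟 u)
    (h1 : ∀ l, n.δ (τ l) = Y (𝒟.arm l) (τ l) + R l)
    (h2 : ∀ l, n.δ (𝒟.om τ l) = Y (𝒟.arm l) (𝒟.om τ l) + 𝒟.om R l)
    {α β : L} (hRt : R = α • τ + β • t') {d : L} {v : V}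
    (h : ∀ l, 𝒟.q (t' l) v = d * 𝒟.q (τ l) v) (a : Fin 3) :
    n.δ (Res 𝒟 τ a v) - Res 𝒟 τ a (n.δ v) - (Y a (Res 𝒟 τ a v) - Res 𝒟 τ a (Y a v)) =
      (2 * (α + β * d)) • Res 𝒟 τ a v := by
  rw [flow_comm hG n hY h1 h2, hK.swap hG.form hG.skew ⟨R, hR, rfl⟩ ⟨τ, hτ, rfl⟩ a]
  have h3 : ∀ l, 𝒟.q (R l) v = (α + β * d) * 𝒟.q (τ l) v := by
    intro l
    rw [hRt, Pi.add_apply, Pi.smul_apply, Pi.smul_apply, map_add, map_smul, map_smul,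
      LinearMap.add_apply, LinearMap.smul_apply, LinearMap.smul_apply, h, smul_eq_mul,
      smul_eq_mul]
    ring
  rw [opr_of_rel h3]
  have h4 : opr 𝒟.q (Tt L τ) (Gm 𝒟.arm 𝒟.Ω a) (Tt L τ) v = Res 𝒟 τ a v := rfl
  rw [h4]
  module

end Vale.Agent.P182.H398
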