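import Vale.Agent.P182.H398.Stab
import Vale.Agent.P182.H983.GDef
import Vale.Agent.P182.H952.Flow2
import Vale.Agent.P182.H746.Twist

/-!
# (N) in the language of the blocks: the flows preserve `W`, `I` and the blocks modulo `I`
-/

namespace Vale.Agent.P182.H398

open Module Matrix Vale.Agent.P182.H533 Vale.Agent.P182.B1 Vale.Agent.P182.H578
  Vale.Agent.P182.H922 Vale.Agent.P182.H588 Vale.Agent.P182.H181 Vale.Agent.P182.H983

/-! ### Orthogonal decompositions -/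

section idem

variable {L E : Type*} [Field L] [AddCommGroup E] [Module L E] {q : E →ₗ[L] E →ₗ[L] L}

theorem ortho_iSup {κ : Type*} {V : κ → Submodule L E} {z : E} {s : Set κ}
    (h : ∀ j ∈ s, ∀ w ∈ V j, q z w = 0) : ∀ w ∈ ⨆ j ∈ s, V j, q z w = 0 := by
  intro w hw
  have h1 : (⨆ j ∈ s, V j) ≤ LinearMap.ker (q z) :=
    iSup₂_le fun j hj w hw => LinearMap.mem_ker.mpr (h j hj w hw)
  exact LinearMap.mem_ker.mp (h1 hw)

/-- the idempotents of an orthogonal decomposition -/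
theorem exists_idem {κ : Type*} [Fintype κ] (hq : IsForm q) {V : κ → Submodule L E}
    (hsup : ⨆ k, V k = ⊤) (hort : ∀ i j, i ≠ j → ∀ v ∈ V i, ∀ w ∈ V j, q v w = 0) :
    ∃ e : κ → End L E, (∀ k v, e k v ∈ V k) ∧ (∀ k, ∀ v ∈ V k, e k v = v) ∧
      (∀ j k, j ≠ k → ∀ v ∈ V k, e j v = 0) ∧ (∀ k, e k * e k = e k) ∧
      (∀ j k, j ≠ k → e j * e k = 0) ∧ (∀ k, IsSA q (e k)) ∧ ∑ k, e k = 1 := by
  classical
  have h0 : ∀ z : E, (∀ k, ∀ w ∈ V k, q z w = 0) → z = 0 := by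
    intro z hz
    apply hq.nondeg
    intro w
    have hw : w ∈ ⨆ k, V k := by rw [hsup]; trivial
    have h1 : (⨆ k, V k) ≤ LinearMap.ker (q z) :=
      iSup_le fun k w hw => LinearMap.mem_ker.mpr (hz k w hw)
    exact LinearMap.mem_ker.mp (h1 hw)
  have hc : ∀ k, IsCompl (V k) (⨆ j ∈ ({k}ᶜ : Set κ), V j) := by
    intro k
    constructor
    · rw [Submodule.disjoint_def]
      intro z hz hz'
      apply h0
      intro i w hw
      by_cases hi : i = k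
      · subst hi
        rw [hq.symm]
        exact ortho_iSup (s := {i}ᶜ) (fun j hj v hv => hort i j (Ne.symm hj) w hw v hv) z hz'
      · exact hort k i (Ne.symm hi) z hz w hw
    · rw [codisjoint_iff, eq_top_iff, ← hsup]
      refine iSup_le fun j => ?_
      by_cases hj : j = k
      · subst hj; exact le_sup_left
      · exact le_sup_of_le_right (le_iSup₂_of_le j hj le_rfl)
  set e : κ → End L E := fun k => (V k).projection _ (hc k) with he
  have e1 : ∀ k v, e k v ∈ V k := fun k v => Submodule.projection_apply_mem _ _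
  have e2 : ∀ k, ∀ v ∈ V k, e k v = v := fun k v hv =>
    Submodule.projection_apply_of_mem_left _ hv
  have e3 : ∀ j k, j ≠ k → ∀ v ∈ V k, e j v = 0 := fun j k hjk v hv =>
    Submodule.projection_apply_of_mem_right _
      ((le_iSup₂_of_le k (Ne.symm hjk) le_rfl : V k ≤ ⨆ i ∈ ({j}ᶜ : Set κ), V i) hv)
  have hext : ∀ f g : E →ₗ[L] E, (∀ k, ∀ v ∈ V k, f v = g v) → f = g := by
    intro f g h
    ext v
    have hv : v ∈ ⨆ k, V k := by rw [hsup]; trivial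
    have h1 : (⨆ k, V k) ≤ LinearMap.ker (f - g) :=
      iSup_le fun k w hw => LinearMap.mem_ker.mpr (by rw [LinearMap.sub_apply, h k w hw, sub_self])
    exact sub_eq_zero.mp (LinearMap.mem_ker.mp (h1 hv))
  have e6 : ∑ k, e k = 1 := by
    apply hext
    intro k v hv
    rw [LinearMap.sum_apply, Finset.sum_eq_single k, e2 k v hv]
    · rfl
    · intro j _ hj
      exact e3 j k hj v hv
    · intro h; exact absurd (Finset.mem_univ _) h
  refine ⟨e, e1, e2, e3, fun k => ?_, fun j k hjk => ?_, fun k u v => ?_, e6⟩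
  · ext v
    exact e2 k _ (e1 k v)
  · ext v
    exact e3 j k hjk _ (e1 k v)
  · have h1 : ∀ x : E, x = ∑ j, e j x := fun x => by
      rw [← LinearMap.sum_apply, e6]; rfl
    have h2 : q (e k u) v = q (e k u) (e k v) := by
      conv_lhs => rw [h1 v, map_sum]
      rw [Finset.sum_eq_single k]
      · intro j _ hj
        exact hort k j (Ne.symm hj) _ (e1 k u) _ (e1 j v)
      · intro h; exact absurd (Finset.mem_univ _) h
    have h3 : q u (e k v) = q (e k u) (e k v) := by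
      conv_lhs => rw [h1 u, map_sum, LinearMap.sum_apply]
      rw [Finset.sum_eq_single k]
      · intro j _ hj
        exact hort j k hj _ (e1 j u) _ (e1 k v)
      · intro h; exact absurd (Finset.mem_univ _) h
    rw [h2, h3]

end idem

/-! ### The blocks -/

section blk

variable {L V J : Type*} [Field L] [AddCommGroup V] [Module L V] [Fintype J] [DecidableEq J]
  {𝒟 : Cfg L V J} {u : J → L} {t t' : J → V} {W I : Submodule L V} {m : ℕ}
  {U : Fin m → Submodule L V} {d : Fin m → L} {p : Fin 3 → ℕ} {x y : L}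

namespace NBlk

theorem exists_core (B : Blk 𝒟 u t t' W I U d p) : ∃ C : Core 𝒟.q (Res 𝒟 t), C.W = W := by
  obtain ⟨N, hN⟩ := B.W_eq
  obtain ⟨V1, h2, h3⟩ : ∃ V1 : Submodule L V, V1 ⊔ (W ⊓ perp 𝒟.q W) = W ∧
      V1 ⊓ (W ⊓ perp 𝒟.q W) = ⊥ := by
    obtain ⟨c, hc⟩ := exists_isCompl (W ⊓ perp 𝒟.q W)
    refine ⟨c ⊓ W, ?_, ?_⟩
    · rw [sup_comm, ← sup_inf_assoc_of_le _ inf_le_left, hc.sup_eq_top, top_inf_eq]
    · rw [inf_right_comm, inf_comm c, hc.inf_eq_bot, bot_inf_eq]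
  exact ⟨⟨N, W, hN, B.sumW, V1, h2, h3⟩, rfl⟩

theorem UW (B : Blk 𝒟 u t t' W I U d p) (k : Fin m) : U k ≤ W := by
  rw [← B.supU]; exact le_iSup U k

theorem IW (B : Blk 𝒟 u t t' W I U d p) : I ≤ W := by rw [B.I_eq]; exact inf_le_left

theorem I_of (B : Blk 𝒟 u t t' W I U d p) {v : V} (hv : v ∈ W) (h : ∀ w ∈ W, 𝒟.q v w = 0) :
    v ∈ I := by rw [B.I_eq]; exact ⟨hv, h⟩

theorem q_I (B : Blk 𝒟 u t t' W I U d p) {v w : V} (hv : v ∈ I) (hw : w ∈ W) :
    𝒟.q v w = 0 := by rw [B.I_eq] at hv; exact hv.2 w hw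

theorem q_I' (hG : 𝒟.Good) (B : Blk 𝒟 u t t' W I U d p) {v w : V} (hv : v ∈ I) (hw : w ∈ W) :
    𝒟.q w v = 0 := by rw [hG.form.symm]; exact q_I B hv hw

/-- an induction over the blocks -/
theorem ind_W (B : Blk 𝒟 u t t' W I U d p) {X : AddSubgroup V}
    (h : ∀ k, ∀ w ∈ U k, w ∈ X) : ∀ w ∈ W, w ∈ X := by
  intro w hw
  rw [← B.supU] at hw
  refine Submodule.iSup_induction U (motive := fun w => w ∈ X) hw h X.zero_mem
    fun v w hv hw => X.add_mem hv hw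

/-- vectors of a block orthogonal to the block -/
theorem I_of_U (B : Blk 𝒟 u t t' W I U d p) {k : Fin m} {v : V} (hv : v ∈ U k)
    (h : ∀ w ∈ U k, 𝒟.q v w = 0) : v ∈ I := by
  refine I_of B (UW B k hv) fun w hw => ?_
  rw [← B.supU] at hw
  have h1 : (⨆ k, U k) ≤ LinearMap.ker (𝒟.q v) := by
    refine iSup_le fun j w hw => LinearMap.mem_ker.mpr ?_
    by_cases hj : j = k
    · subst hj; exact h w hw
    · exact B.ortho k j (Ne.symm hj) v hv w hw
  exact LinearMap.mem_ker.mp (h1 hw)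

/-- a decomposition -/
theorem dec_W (B : Blk 𝒟 u t t' W I U d p) {w : V} (hw : w ∈ W) :
    ∃ f : Fin m → V, (∀ k, f k ∈ U k) ∧ ∑ k, f k = w := by
  rw [← B.supU, Submodule.mem_iSup_iff_exists_finsupp] at hw
  obtain ⟨f, hf, hfv⟩ := hw
  rw [Finsupp.sum_fintype _ _ (fun _ => rfl)] at hfv
  exact ⟨f, hf, hfv⟩

/-- a vector of `W` orthogonal to all blocks but one is in this block modulo `I` -/
theorem mem_of_ortho (B : Blk 𝒟 u t t' W I U d p) {k : Fin m} {v : V} (hv : v ∈ W)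
    (h : ∀ j, j ≠ k → ∀ w ∈ U j, 𝒟.q v w = 0) : v ∈ U k ⊔ I := by
  obtain ⟨f, hf, rfl⟩ := dec_W B hv
  have h1 : ∀ j, j ≠ k → f j ∈ I := by
    intro j hj
    refine I_of_U B (hf j) fun w hw => ?_
    have h2 := h j hj w hw
    rw [map_sum, LinearMap.sum_apply, Finset.sum_eq_single j] at h2
    · exact h2
    · intro i _ hi
      exact B.ortho i j hi _ (hf i) w hw
    · intro h; exact absurd (Finset.mem_univ _) h
  refine Submodule.sum_mem _ fun j _ => ?_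
  by_cases hj : j = k
  · subst hj; exact Submodule.mem_sup_left (hf j)
  · exact Submodule.mem_sup_right (h1 j hj)

theorem SW (B : Blk 𝒟 u t t' W I U d p) (a : Fin 3) {w : V} (hw : w ∈ W) :
    Res 𝒟 t a w ∈ W := by
  rw [← B.sumW]
  exact Submodule.mem_iSup_of_mem a (Submodule.mem_map_of_mem hw)

theorem SU (B : Blk 𝒟 u t t' W I U d p) (k : Fin m) (a : Fin 3) {w : V} (hw : w ∈ U k) :
    Res 𝒟 t a w ∈ U k := by
  rw [← B.sumU k]
  exact Submodule.mem_iSup_of_mem a (Submodule.mem_map_of_mem hw)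

theorem SA (hG : 𝒟.Good) (τ : J → V) (a : Fin 3) : IsSA 𝒟.q (Res 𝒟 τ a) :=
  Sop_SA 𝒟.arm hG.form (Tt L τ) hG.skew a

theorem SI (hG : 𝒟.Good) (B : Blk 𝒟 u t t' W I U d p) (a : Fin 3) {w : V} (hw : w ∈ I) :
    Res 𝒟 t a w ∈ I := by
  refine I_of B (SW B a (IW B hw)) fun v hv => ?_
  rw [SA hG t a]
  exact q_I B hw (SW B a hv)

/-! ### The base `x t + y t'` -/

theorem tm_mem (B : Blk 𝒟 u t t' W I U d p) (x y : L) : tm t t' x y ∈ Ku 𝒟 u :=
  add_mem (Submodule.smul_mem _ _ B.ht) (Submodule.smul_mem _ _ B.ht')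

theorem q_tm (B : Blk 𝒟 u t t' W I U d p) (x y : L) {k : Fin m} {w : V} (hw : w ∈ U k) (l : J) :
    𝒟.q (tm t t' x y l) w = (x + y * d k) * 𝒟.q (t l) w := by
  rw [tm, Pi.add_apply, Pi.smul_apply, Pi.smul_apply, map_add, map_smul, map_smul,
    LinearMap.add_apply, LinearMap.smul_apply, LinearMap.smul_apply, B.star k w hw, smul_eq_mul,
    smul_eq_mul]
  ring

theorem opr_tm (B : Blk 𝒟 u t t' W I U d p) (x y : L) {k : Fin m} {w : V} (hw : w ∈ U k)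
    (r : J → V) (a : Fin 3) :
    opr 𝒟.q (Tt L r) (Gm 𝒟.arm 𝒟.Ω a) (Tt L (tm t t' x y)) w =
      (x + y * d k) • opr 𝒟.q (Tt L r) (Gm 𝒟.arm 𝒟.Ω a) (Tt L t) w :=
  opr_of_rel (q_tm B x y hw) a

/-- **The residues of `x t + y t'` on a block.** -/
theorem Res_tm (hG : 𝒟.Good) (hK : KRel 𝒟.arm 𝒟.q 𝒟.Ω (Tt L '' (Ku 𝒟 u : Set (J → V))))
    (B : Blk 𝒟 u t t' W I U d p) (x y : L) {k : Fin m} {w : V} (hw : w ∈ U k) (a : Fin 3) :
    Res 𝒟 (tm t t' x y) a w = (x + y * d k) ^ 2 • Res 𝒟 t a w := by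
  have h1 : Res 𝒟 (tm t t' x y) a w = opr 𝒟.q (Tt L (tm t t' x y)) (Gm 𝒟.arm 𝒟.Ω a)
    (Tt L (tm t t' x y)) w := rfl
  have h2 : opr 𝒟.q (Tt L (tm t t' x y)) (Gm 𝒟.arm 𝒟.Ω a) (Tt L t) =
      opr 𝒟.q (Tt L t) (Gm 𝒟.arm 𝒟.Ω a) (Tt L (tm t t' x y)) :=
    hK.swap hG.form hG.skew ⟨_, tm_mem B x y, rfl⟩ ⟨_, B.ht, rfl⟩ a
  have h3 : opr 𝒟.q (Tt L t) (Gm 𝒟.arm 𝒟.Ω a) (Tt L t) w = Res 𝒟 t a w := rfl
  rw [h1, opr_tm B x y hw, h2, opr_tm B x y hw, h3, smul_smul, sq]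

section tm

variable (hG : 𝒟.Good) (hK : KRel 𝒟.arm 𝒟.q 𝒟.Ω (Tt L '' (Ku 𝒟 u : Set (J → V))))
  (B : Blk 𝒟 u t t' W I U d p)

include hG hK B

theorem SUx (k : Fin m) (a : Fin 3) {w : V} (hw : w ∈ U k) :
    Res 𝒟 (tm t t' x y) a w ∈ U k := by
  rw [Res_tm hG hK B x y hw]
  exact Submodule.smul_mem _ _ (SU B k a hw)

theorem SWx (a : Fin 3) {w : V} (hw : w ∈ W) : Res 𝒟 (tm t t' x y) a w ∈ W := by
  have h1 : ∀ w ∈ W, w ∈ (W.comap (Res 𝒟 (tm t t' x y) a)).toAddSubgroup :=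
    ind_W B fun k w hw => UW B k (SUx hG hK B k a hw)
  exact h1 w hw

theorem SIx (a : Fin 3) {w : V} (hw : w ∈ I) : Res 𝒟 (tm t t' x y) a w ∈ I := by
  refine I_of B (SWx hG hK B a (IW B hw)) fun v hv => ?_
  rw [SA hG _ a]
  exact q_I B hw (SWx hG hK B a hv)

theorem sumUx (hxy : ∀ k, x + y * d k ≠ 0) (k : Fin m) :
    ⨆ a, (U k).map (Res 𝒟 (tm t t' x y) a) = U k := by
  apply le_antisymm
  · refine iSup_le fun a => ?_
    rintro _ ⟨w, hw, rfl⟩
    exact SUx hG hK B k a hw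
  · conv_lhs => rw [← B.sumU k]
    refine iSup_mono fun a => ?_
    rintro _ ⟨w, hw, rfl⟩
    refine ⟨((x + y * d k) ^ 2)⁻¹ • w, Submodule.smul_mem _ _ hw, ?_⟩
    rw [map_smul, Res_tm hG hK B x y hw, smul_smul, inv_mul_cancel₀ (pow_ne_zero 2 (hxy k)),
      one_smul]

theorem sumWx (hxy : ∀ k, x + y * d k ≠ 0) :
    ⨆ a, W.map (Res 𝒟 (tm t t' x y) a) = W := by
  apply le_antisymm
  · refine iSup_le fun a => ?_
    rintro _ ⟨w, hw, rfl⟩
    exact SWx hG hK B a hw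
  · conv_lhs => rw [← B.supU]
    refine iSup_le fun k => ?_
    conv_lhs => rw [← sumUx hG hK B hxy k]
    exact iSup_mono fun a => Submodule.map_mono (UW B k)

end tm

/-- the constants of an element of the kernel -/
theorem exists_c (B : Blk 𝒟 u t t' W I U d p) (hxy : ∀ k, x + y * d k ≠ 0) {R : J → V}
    (hR : R ∈ Ku 𝒟 u) : ∃ c : Fin m → L, (∀ i j, d i = d j → c i = c j) ∧
      ∀ k, ∀ w ∈ U k, ∀ l, 𝒟.q (R l) w = c k * 𝒟.q (tm t t' x y l) w := by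
  obtain ⟨α, β, rfl⟩ := B.span R hR
  refine ⟨fun k => (α + β * d k) / (x + y * d k), fun i j h => by simp only [h],
    fun k w hw l => ?_⟩
  rw [q_tm B x y hw]
  have h1 : 𝒟.q ((α • t + β • t') l) w = (α + β * d k) * 𝒟.q (t l) w := q_tm B α β hw l
  rw [h1, ← mul_assoc, div_mul_cancel₀ _ (hxy k)]

end NBlk

/-! ### Centrality -/

/-- the centrality at a base `τ`: operators of `W/I` commuting with the residues of `τ` preserve
the eigenspaces of `d` -/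
def Cent (𝒟 : Cfg L V J) (τ : J → V) (W I : Submodule L V) {m : ℕ} (U : Fin m → Submodule L V)
    (d : Fin m → L) : Prop :=
  ∀ M : End L V, (∀ w ∈ W, M w ∈ W) → (∀ w ∈ I, M w ∈ I) →
    (∀ a, ∀ w ∈ W, M (Res 𝒟 τ a w) - Res 𝒟 τ a (M w) ∈ I) →
    ∀ i j, d i ≠ d j → ∀ v ∈ U i, ∀ w ∈ U j, 𝒟.q (M v) w = 0

namespace NBlk

/-- self-adjoint operators commuting with the residues of `τ` are scalars on the blocks -/
theorem cent_SA (hG : 𝒟.Good)
    (hK : KRel 𝒟.arm 𝒟.q 𝒟.Ω (Tt L '' (Ku 𝒟 u : Set (J → V))))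
    (B : Blk 𝒟 u t t' W I U d p) (hxy : ∀ k, x + y * d k ≠ 0)
    (hc : Cent 𝒟 (tm t t' x y) W I U d) {M : End L V} (hMW : ∀ w ∈ W, M w ∈ W)
    (hMI : ∀ w ∈ I, M w ∈ I)
    (hMS : ∀ a, ∀ w ∈ W, M (Res 𝒟 (tm t t' x y) a w) - Res 𝒟 (tm t t' x y) a (M w) ∈ I)
    (hM : ∀ v ∈ W, ∀ w ∈ W, 𝒟.q (M v) w = 𝒟.q v (M w)) :
    ∃ c : Fin m → L, ∀ k, ∀ w ∈ U k, M w - c k • w ∈ I := by
  refine B.scal M hMW hMI hM fun a => ?_
  let X : AddSubgroup V := I.toAddSubgroup.comap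
    ((M * Res 𝒟 t a - Res 𝒟 t a * M : End L V) : V →+ V)
  have key : ∀ w ∈ W, w ∈ X := by
    refine ind_W B fun j w hw => ?_
    show (M * Res 𝒟 t a - Res 𝒟 t a * M) w ∈ I
    rw [LinearMap.sub_apply, Module.End.mul_apply, Module.End.mul_apply]
    have h0 : (x + y * d j) ^ 2 ≠ 0 := pow_ne_zero 2 (hxy j)
    have h1 := hMS a w (UW B j hw)
    have h2 : Res 𝒟 (tm t t' x y) a (M w) - (x + y * d j) ^ 2 • Res 𝒟 t a (M w) ∈ I := by
      obtain ⟨f, hf, hfw⟩ := dec_W B (hMW w (UW B j hw))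
      have h3 : ∀ i, d j ≠ d i → f i ∈ I := by
        intro i hij
        refine I_of_U B (hf i) fun w' hw' => ?_
        have h4 := hc M hMW hMI hMS j i hij w hw w' hw'
        rw [← hfw, map_sum, LinearMap.sum_apply, Finset.sum_eq_single i] at h4
        · exact h4
        · intro k _ hk
          exact B.ortho k i hk _ (hf k) w' hw'
        · intro h; exact absurd (Finset.mem_univ _) h
      rw [← hfw, map_sum, map_sum, Finset.smul_sum, ← Finset.sum_sub_distrib]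
      refine Submodule.sum_mem _ fun i _ => ?_
      rw [Res_tm hG hK B x y (hf i)]
      by_cases hij : d j = d i
      · rw [hij, sub_self]
        exact zero_mem _
      · exact Submodule.sub_mem _ (Submodule.smul_mem _ _ (SI hG B a (h3 i hij)))
          (Submodule.smul_mem _ _ (SI hG B a (h3 i hij)))
    rw [Res_tm hG hK B x y hw, map_smul] at h1
    have h5 := Submodule.smul_mem _ ((x + y * d j) ^ 2)⁻¹ (Submodule.add_mem _ h1 h2)
    convert h5 using 1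
    rw [sub_add_sub_cancel, ← smul_sub, smul_smul, inv_mul_cancel₀ h0, one_smul]
  intro w hw
  exact key w hw

section core

variable {C : Core 𝒟.q (Res 𝒟 t)} [FiniteDimensional L V]

theorem q1_P (hG : 𝒟.Good) {v w : V} (hv : v ∈ C.W) (hw : w ∈ C.W) :
    C.q1 (C.P hG.form v) (C.P hG.form w) = 𝒟.q v w := by
  rw [C.q_P]
  have h1 := C.I_ortho_W hG.form (C.sub_P_mem_I hG.form hw) hv
  rw [map_sub, sub_eq_zero] at h1
  exact h1.symm

theorem res_P (hG : 𝒟.Good) {X : End L V} (hXI : ∀ w ∈ C.I, X w ∈ C.I) {w : V} (hw : w ∈ C.W) :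
    C.res hG.form X (C.P hG.form w) = C.P hG.form (X w) := by
  rw [C.res_apply]
  refine P_congr hG ?_
  rw [← map_sub, ← neg_sub, map_neg]
  exact Submodule.neg_mem _ (hXI _ (C.sub_P_mem_I hG.form hw))

theorem mapU_core (hG : 𝒟.Good)
    (hK : KRel 𝒟.arm 𝒟.q 𝒟.Ω (Tt L '' (Ku 𝒟 u : Set (J → V))))
    (B : Blk 𝒟 u t t' C.W C.I U d p) (hxy : ∀ k, x + y * d k ≠ 0)
    (hc : Cent 𝒟 (tm t t' x y) C.W C.I U d) (n : H533.Conn 𝒟.q)
    (hnW : ∀ w ∈ C.W, n.δ w ∈ C.W) {Y : Fin 3 → End L V} (hY : ∀ a, IsSk 𝒟.q (Y a))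
    {R : J → V} (hR : R ∈ Ku 𝒟 u)
    (h1 : ∀ l, n.δ (tm t t' x y l) = Y (𝒟.arm l) (tm t t' x y l) + R l)
    (h2 : ∀ l, n.δ (𝒟.om (tm t t' x y) l) = Y (𝒟.arm l) (𝒟.om (tm t t' x y) l) + 𝒟.om R l)
    (hYS : ∀ a, ∀ w ∈ C.W, Y a (Res 𝒟 (tm t t' x y) a w) -
      Res 𝒟 (tm t t' x y) a (Y a w) ∈ C.I) (k : Fin m) :
    ∀ w ∈ U k, n.δ w ∈ U k ⊔ C.I := by
  have hq := hG.form
  set τ := tm t t' x y with hτ
  have hτK : τ ∈ Ku 𝒟 u := tm_mem B x y
  -- the decomposition of `V1`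
  have hsup : ⨆ k, (U k).map (C.P hq) = ⊤ := by
    rw [← Submodule.map_iSup, B.supU, eq_top_iff]
    rintro v -
    exact ⟨v, C.V1_le v.2, C.P_coe hq v⟩
  have hort : ∀ i j, i ≠ j → ∀ v ∈ (U i).map (C.P hq), ∀ w ∈ (U j).map (C.P hq),
      C.q1 v w = 0 := by
    rintro i j hij _ ⟨v, hv, rfl⟩ _ ⟨w, hw, rfl⟩
    rw [q1_P hG (UW B i hv) (UW B j hw)]
    exact B.ortho i j hij v hv w hw
  obtain ⟨e, e1, e2, e3, e4, e5, e6, e7⟩ := exists_idem (C.isForm hq) hsup hort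
  have hext : ∀ f g : End L C.V1, (∀ j, ∀ w ∈ U j, f (C.P hq w) = g (C.P hq w)) → f = g := by
    intro f g h
    ext v
    congr 1
    have hv : v ∈ ⨆ k, (U k).map (C.P hq) := by rw [hsup]; trivial
    have h1 : (⨆ k, (U k).map (C.P hq)) ≤ LinearMap.ker (f - g) := by
      refine iSup_le fun k => ?_
      rintro _ ⟨w, hw, rfl⟩
      exact LinearMap.mem_ker.mpr (by rw [LinearMap.sub_apply, h k w hw, sub_self])
    exact sub_eq_zero.mp (LinearMap.mem_ker.mp (h1 hv))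
  have e2' : ∀ j, ∀ w ∈ U j, e j (C.P hq w) = C.P hq w := fun j w hw =>
    e2 j _ ⟨w, hw, rfl⟩
  have e3' : ∀ i j, i ≠ j → ∀ w ∈ U j, e i (C.P hq w) = 0 := fun i j hij w hw =>
    e3 i j hij _ ⟨w, hw, rfl⟩
  -- an operator which is a multiple of an operator preserving the blocks
  have hcomm : ∀ (X : End L C.V1), (∀ j, ∀ w ∈ U j, ∃ w' ∈ U j, X (C.P hq w) = C.P hq w') →
      e k * X = X * e k := by
    intro X hX
    apply hext
    intro j w hw
    obtain ⟨w', hw', h⟩ := hX j w hw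
    rw [Module.End.mul_apply, Module.End.mul_apply, h]
    by_cases hj : k = j
    · subst hj
      rw [e2' k w' hw', e2' k w hw, h]
    · rw [e3' k j hj w' hw', e3' k j hj w hw, map_zero]
  obtain ⟨c, -, hcR⟩ := exists_c B hxy hR
  have hSI : ∀ a, ∀ w ∈ C.I, Res 𝒟 τ a w ∈ C.I := fun a w hw => SIx hG hK B a hw
  have hSW : ∀ a, ∀ w ∈ C.W, Res 𝒟 τ a w ∈ C.W := fun a w hw => SWx hG hK B a hw
  have hopR : ∀ a, ∀ j, ∀ w ∈ U j, opr 𝒟.q (Tt L τ) (Gm 𝒟.arm 𝒟.Ω a) (Tt L R) w =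
      c j • Res 𝒟 τ a w := fun a j w hw => opr_of_rel (hcR j w hw) a
  have hswap : ∀ a, opr 𝒟.q (Tt L R) (Gm 𝒟.arm 𝒟.Ω a) (Tt L τ) =
      opr 𝒟.q (Tt L τ) (Gm 𝒟.arm 𝒟.Ω a) (Tt L R) := fun a =>
    hK.swap hG.form hG.skew ⟨R, hR, rfl⟩ ⟨τ, hτK, rfl⟩ a
  have hopI : ∀ a, ∀ w ∈ C.I, opr 𝒟.q (Tt L τ) (Gm 𝒟.arm 𝒟.Ω a) (Tt L R) w ∈ C.I := by
    intro a w hw
    rw [← B.supI] at hw
    have h3 : (⨆ k, U k ⊓ C.I) ≤
        C.I.comap (opr 𝒟.q (Tt L τ) (Gm 𝒟.arm 𝒟.Ω a) (Tt L R)) := by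
      refine iSup_le fun j w hw => ?_
      rw [Submodule.mem_comap, hopR a j w hw.1]
      exact Submodule.smul_mem _ _ (hSI a w hw.2)
    exact h3 hw
  have hbr := brk_flow hG n hnW hY h1 h2 hSW hSI hYS
  refine flow_block hG n hnW (e := e k) ?_ (UW B k) (e2' k) ?_
  · refine brk_idem (connCore hG C n) hbr (e4 k) (fun a => hcomm _ fun j w hw => ?_)
      (fun a => hcomm _ fun j w hw => ?_) (e6 k) ?_
    · exact ⟨Res 𝒟 τ a w, SUx hG hK B j a hw, res_P hG (hSI a) (UW B j hw)⟩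
    · refine ⟨(2 * c j) • Res 𝒟 τ a w, Submodule.smul_mem _ _ (SUx hG hK B j a hw), ?_⟩
      rw [hswap, LinearMap.add_apply, res_P hG (hopI a) (UW B j hw), hopR a j w hw, map_smul,
        map_smul]
      module
    · intro M hM hMA
      set M' : End L V := C.V1.subtype ∘ₗ M ∘ₗ C.P hq with hM'
      have hM'a : ∀ v, M' v = (M (C.P hq v) : V) := fun v => rfl
      obtain ⟨κ, hκ⟩ := cent_SA hG hK B hxy hc (M := M')
        (fun w _ => by rw [hM'a]; exact C.V1_le (M _).2)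
        (fun w hw => by
          rw [hM'a, P_I hG hw, map_zero, Submodule.coe_zero]
          exact zero_mem _)
        (fun a w hw => by
          have h3 : M (C.P hq (Res 𝒟 τ a w)) = C.res hq (Res 𝒟 τ a) (M (C.P hq w)) := by
            rw [← res_P hG (hSI a) hw]
            exact LinearMap.congr_fun (hMA a) _
          rw [hM'a, hM'a, h3, C.res_apply, ← neg_sub]
          exact Submodule.neg_mem _ (C.sub_P_mem_I hq (hSW a _ (C.V1_le (M _).2))))
        (fun v hv w hw => by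
          have h3 := q1_P (C := C) hG (v := M' v) (w := w) (C.V1_le (M _).2) hw
          have h4 := q1_P (C := C) hG (v := v) (w := M' w) hv (C.V1_le (M _).2)
          rw [hM'a, C.P_coe] at h3 h4
          rw [hM'a, hM'a, ← h3, ← h4, hM])
      have hκ' : ∀ j, ∀ w ∈ U j, M (C.P hq w) = κ j • C.P hq w := by
        intro j w hw
        have h3 := P_congr hG (hκ j w hw)
        rw [hM'a, C.P_coe, map_smul] at h3
        exact h3
      refine (hcomm M fun j w hw => ⟨κ j • w, Submodule.smul_mem _ _ hw, ?_⟩).symm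
      rw [hκ' j w hw, map_smul]
  · intro v hv
    obtain ⟨w, hw, hwv⟩ := e1 k v
    exact ⟨w, hw, by rw [hwv, hv]⟩

end core

end NBlk

end blk

end Vale.Agent.P182.H398
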