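import Vale.Agent.P182.H398.NBlk
import Vale.Agent.P182.H58.Glue7I
import Vale.Agent.P182.H952.Flow3

/-!
# (N) for the flows of the tensors of two blocks
-/

namespace Vale.Agent.P182.H398

open Module Matrix Vale.Agent.P182.H533 Vale.Agent.P182.B1 Vale.Agent.P182.H578
  Vale.Agent.P182.H922 Vale.Agent.P182.H588 Vale.Agent.P182.H181 Vale.Agent.P182.H983
  Vale.Agent.P182.H58.Glue7

universe u v w

section blk

variable {L : Type u} {V : Type v} {J : Type w} [Field L] [AddCommGroup V] [Module L V]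
  [Fintype J] [DecidableEq J]
  {𝒟 : Cfg L V J} {u : J → L} {t t' : J → V} {W I : Submodule L V} {m : ℕ}
  {U : Fin m → Submodule L V} {d : Fin m → L} {p : Fin 3 → ℕ} {x y : L}

/-- a connection moving `τ` by `Y`, preserving `W` -/
structure NF (𝒟 : Cfg L V J) (u : J → L) (W : Submodule L V) (τ : J → V) (Y : Fin 3 → End L V)
    (n : H533.Conn 𝒟.q) (R : J → V) : Prop where
  mem : R ∈ Ku 𝒟 u
  tau : ∀ l, n.δ (τ l) = Y (𝒟.arm l) (τ l) + R l
  om : ∀ l, n.δ (𝒟.om τ l) = Y (𝒟.arm l) (𝒟.om τ l) + 𝒟.om R l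
  nW : ∀ w ∈ W, n.δ w ∈ W

namespace NBlk

section gen

variable (hG : 𝒟.Good) (hK : KRel 𝒟.arm 𝒟.q 𝒟.Ω (Tt L '' (Ku 𝒟 u : Set (J → V))))
  (B : H983.Blk 𝒟 u t t' W I U d p)

include hG hK B

/-- **The commutation rule**, before `W` is known to be preserved. -/
theorem rule0 (hxy : ∀ k, x + y * d k ≠ 0) {Y : Fin 3 → End L V} {n : H533.Conn 𝒟.q} {R : J → V}
    (hY : ∀ a, IsSk 𝒟.q (Y a)) (hR : R ∈ Ku 𝒟 u)
    (h1 : ∀ l, n.δ (tm t t' x y l) = Y (𝒟.arm l) (tm t t' x y l) + R l)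
    (h2 : ∀ l, n.δ (𝒟.om (tm t t' x y) l) = Y (𝒟.arm l) (𝒟.om (tm t t' x y) l) + 𝒟.om R l) :
    ∃ c : Fin m → L, (∀ i j, d i = d j → c i = c j) ∧
    (∀ k, ∀ w ∈ U k, ∀ l, 𝒟.q (R l) w = c k * 𝒟.q (tm t t' x y l) w) ∧
    ∀ k a, ∀ w ∈ U k, n.δ (Res 𝒟 (tm t t' x y) a w) - Res 𝒟 (tm t t' x y) a (n.δ w) -
      (Y a (Res 𝒟 (tm t t' x y) a w) - Res 𝒟 (tm t t' x y) a (Y a w)) =
      (2 * c k) • Res 𝒟 (tm t t' x y) a w := by
  obtain ⟨c, hc1, hc⟩ := exists_c B hxy hR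
  exact ⟨c, hc1, hc, fun k a w hw => flow_hn' hG hK n hY (tm_mem B x y) hR h1 h2 (hc k w hw) a⟩

/-- the flow preserves `W` -/
theorem mapW (hxy : ∀ k, x + y * d k ≠ 0)
    (hnil : ∃ N, H533.words (Res 𝒟 (tm t t' x y)) N ≤ W) {Y : Fin 3 → End L V}
    {n : H533.Conn 𝒟.q} {R : J → V} (hY : ∀ a, IsSk 𝒟.q (Y a)) (hYW : ∀ a, ∀ w ∈ W, Y a w ∈ W)
    (hR : R ∈ Ku 𝒟 u)
    (h1 : ∀ l, n.δ (tm t t' x y l) = Y (𝒟.arm l) (tm t t' x y l) + R l)
    (h2 : ∀ l, n.δ (𝒟.om (tm t t' x y) l) = Y (𝒟.arm l) (𝒟.om (tm t t' x y) l) + 𝒟.om R l) :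
    ∀ w ∈ W, n.δ w ∈ W := by
  obtain ⟨N, hN⟩ := hnil
  obtain ⟨c, -, -, hc⟩ := rule0 hG hK B hxy hY hR h1 h2
  refine der_W (S := Res 𝒟 (tm t t' x y)) (sumWx hG hK B hxy).ge hN
    (fun a w hw => SWx hG hK B a hw) n fun a => ?_
  let g : V →+ V := n.δ.comp ((Res 𝒟 (tm t t' x y) a : End L V) : V →+ V) -
    ((Res 𝒟 (tm t t' x y) a : End L V) : V →+ V).comp n.δ
  have key : ∀ w ∈ W, w ∈ W.toAddSubgroup.comap g := by
    refine ind_W B fun k w hw => ?_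
    show n.δ (Res 𝒟 (tm t t' x y) a w) - Res 𝒟 (tm t t' x y) a (n.δ w) ∈ W
    have h1 := hc k a w hw
    rw [sub_eq_iff_eq_add] at h1
    rw [h1]
    have hwW := UW B k hw
    exact W.add_mem (W.smul_mem _ (SWx hG hK B a hwW)) (W.sub_mem (hYW a _ (SWx hG hK B a hwW))
      (SWx hG hK B a (hYW a w hwW)))
  intro w hw
  exact key w hw

omit hG hK in
/-- the flow preserves `I` -/
theorem mapI {n : H533.Conn 𝒟.q} (hnW : ∀ w ∈ W, n.δ w ∈ W) : ∀ w ∈ I, n.δ w ∈ I := by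
  have h1 := conn_rad n hnW
  rw [← B.I_eq] at h1
  exact h1

variable [FiniteDimensional L V]

/-- **The flow preserves the blocks modulo `I`.** -/
theorem mapU (hxy : ∀ k, x + y * d k ≠ 0) (hc : Cent 𝒟 (tm t t' x y) W I U d)
    {Y : Fin 3 → End L V} {n : H533.Conn 𝒟.q} {R : J → V}
    (F : NF 𝒟 u W (tm t t' x y) Y n R)
    (hY : ∀ a, IsSk 𝒟.q (Y a))
    (hYS : ∀ a, ∀ w ∈ W, Y a (Res 𝒟 (tm t t' x y) a w) -
      Res 𝒟 (tm t t' x y) a (Y a w) ∈ I) (k : Fin m) : ∀ w ∈ U k, n.δ w ∈ U k ⊔ I := by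
  obtain ⟨C, hC⟩ := exists_core B
  subst hC
  have hI : I = C.I := B.I_eq
  subst hI
  exact mapU_core hG hK B hxy hc n F.nW hY F.mem F.tau F.om hYS k

end gen

/-! ### Tensors of two blocks -/

section ten

/-- the flow of an admissible triple `T` with adjoint `Td` -/
structure TF (𝒟 : Cfg L V J) (u : J → L) (W I Ui Uj : Submodule L V) (τ : J → V)
    (T Td : Fin 3 → End L V) (n : H533.Conn 𝒟.q) (R : J → V) : Prop where
  adm : Adm 𝒟.q (Res 𝒟 τ) I Ui Uj T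
  adj : ∀ a, IsAdj 𝒟.q (T a) (Td a)
  nf : NF 𝒟 u W τ (fun a => T a - Td a) n R

section adm

variable {q : V →ₗ[L] V →ₗ[L] L} {S : Fin 3 → End L V} {Ui Uj : Submodule L V}
  {T Td : Fin 3 → End L V}

theorem adj_symm {A A' : End L V} (hq : IsForm q) (h : IsAdj q A A') (v w : V) :
    q (A' v) w = q v (A w) := by
  rw [hq.symm, ← h, hq.symm]

theorem adj_sk (hq : IsForm q) (h : ∀ a, IsAdj q (T a) (Td a)) (a : Fin 3) :
    IsSk q (T a - Td a) := fun v w => by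
  rw [LinearMap.sub_apply, LinearMap.sub_apply, map_sub, map_sub, LinearMap.sub_apply, h a,
    adj_symm hq (h a)]
  ring

theorem Td_ker (hq : IsForm q) (hT : Adm q S I Ui Uj T) (h : ∀ a, IsAdj q (T a) (Td a))
    (a : Fin 3) {v : V} (hv : v ∈ perp q Ui) : Td a v = 0 := hq.nondeg _ fun w => by
  rw [adj_symm hq (h a)]; exact hv _ (hT.range a w)

theorem Td_mem [FiniteDimensional L V] (hq : IsForm q) (hT : Adm q S I Ui Uj T)
    (h : ∀ a, IsAdj q (T a) (Td a)) (a : Fin 3) (v : V) : Td a v ∈ Uj := by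
  rw [← H62.perp_perp hq Uj]
  intro w hw
  rw [adj_symm hq (h a), hT.ker a w hw, map_zero]

end adm

variable (hG : 𝒟.Good) (hK : KRel 𝒟.arm 𝒟.q 𝒟.Ω (Tt L '' (Ku 𝒟 u : Set (J → V))))
  (B : H983.Blk 𝒟 u t t' W I U d p) {i j : Fin m} {T Td : Fin 3 → End L V}
  {n n' : H533.Conn 𝒟.q} {R R' : J → V}

theorem U_perp (B : H983.Blk 𝒟 u t t' W I U d p) {k j : Fin m} (hkj : k ≠ j) :
    U k ≤ perp 𝒟.q (U j) := fun v hv w hw => B.ortho k j hkj v hv w hw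

theorem dec_perp (B : H983.Blk 𝒟 u t t' W I U d p) (j : Fin m) :
    ∀ w ∈ W, ∃ x ∈ U j, w - x ∈ perp 𝒟.q (U j) := by
  intro w hw
  obtain ⟨f, hf, rfl⟩ := dec_W B hw
  refine ⟨f j, hf j, ?_⟩
  rw [← Finset.sum_erase_eq_sub (Finset.mem_univ j)]
  exact Submodule.sum_mem _ fun k hk => U_perp B (Finset.ne_of_mem_erase hk) (hf k)

variable [FiniteDimensional L V]

include hG hK B

omit [FiniteDimensional L V] in
theorem SP (j : Fin m) (a : Fin 3) : ∀ w ∈ perp 𝒟.q (U j),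
    Res 𝒟 (tm t t' x y) a w ∈ perp 𝒟.q (U j) := fun w hw v hv => by
  rw [SA hG _ a]
  exact hw _ (SUx hG hK B j a hv)

/-- `[Y_a, S_a] W ≤ I` -/
theorem YS (hT : Adm 𝒟.q (Res 𝒟 (tm t t' x y)) I (U i) (U j) T)
    (hTd : ∀ a, IsAdj 𝒟.q (T a) (Td a)) (a : Fin 3) :
    ∀ w ∈ W, (T a - Td a) (Res 𝒟 (tm t t' x y) a w) -
      Res 𝒟 (tm t t' x y) a ((T a - Td a) w) ∈ I := fun w hw =>
  adm_YS hG.form (SA hG _) (fun x hx w hw => q_I B hx hw) (fun x hx h => I_of B hx h)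
    (fun a w hw => SWx hG hK B a hw) (dec_perp B j) (SP hG hK B j) hT
    (fun a x y => adj_symm hG.form (hTd a) x y)
    (fun a v => UW B j (Td_mem hG.form hT hTd a v)) a hw

/-- the flipped triple is admissible -/
theorem adm_flip (hT : Adm 𝒟.q (Res 𝒟 (tm t t' x y)) I (U i) (U j) T)
    (hTd : ∀ a, IsAdj 𝒟.q (T a) (Td a)) (hij : i ≠ j) :
    Adm 𝒟.q (Res 𝒟 (tm t t' x y)) I (U j) (U i) (fun a => - Td a) where
  range a v := Submodule.neg_mem _ (Td_mem hG.form hT hTd a v)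
  ker a v hv := by rw [LinearMap.neg_apply, Td_ker hG.form hT hTd a hv, neg_zero]
  sum := by
    have hS := SA hG (tm t t' x y)
    ext v
    apply hG.form.ext
    intro w
    have h1 := LinearMap.congr_fun hT.sum w
    have h2 := congrArg (𝒟.q v) h1
    rw [LinearMap.sum_apply, LinearMap.zero_apply, map_zero, map_sum] at h2
    rw [LinearMap.sum_apply, map_sum, LinearMap.sum_apply, LinearMap.zero_apply, map_zero,
      LinearMap.zero_apply, ← h2]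
    refine Finset.sum_congr rfl fun a _ => ?_
    have e1 : 𝒟.q (Res 𝒟 (tm t t' x y) a (Td a v)) w =
        𝒟.q v (T a (Res 𝒟 (tm t t' x y) a w)) := by rw [hS, adj_symm hG.form (hTd a)]
    have e2 : 𝒟.q (Td a (Res 𝒟 (tm t t' x y) a v)) w =
        𝒟.q v (Res 𝒟 (tm t t' x y) a (T a w)) := by rw [adj_symm hG.form (hTd a), hS]
    simp only [LinearMap.sub_apply, Module.End.mul_apply, LinearMap.neg_apply, map_sub, map_neg,
      e1, e2]
    ring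
  comm a w hw := by
    have h1 := YS hG hK B hT hTd a w (UW B i hw)
    have h2 : T a w = 0 := hT.ker a w (U_perp B hij hw)
    have h3 : T a (Res 𝒟 (tm t t' x y) a w) = 0 :=
      hT.ker a _ (U_perp B hij (SUx hG hK B i a hw))
    rw [LinearMap.sub_apply, LinearMap.sub_apply, h2, h3, zero_sub, zero_sub, map_neg] at h1
    have h4 := Submodule.neg_mem _ h1
    rw [LinearMap.neg_apply, LinearMap.neg_apply, map_neg]
    convert h4 using 1
    abel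

/-- the flow of the flipped triple -/
theorem TF.flip (F : TF 𝒟 u W I (U i) (U j) (tm t t' x y) T Td n R) (hij : i ≠ j) :
    TF 𝒟 u W I (U j) (U i) (tm t t' x y) (fun a => - Td a) (fun a => - T a) n R where
  adm := adm_flip hG hK B F.adm F.adj hij
  adj a v w := by
    rw [LinearMap.neg_apply, LinearMap.neg_apply, map_neg, map_neg, LinearMap.neg_apply,
      adj_symm hG.form (F.adj a)]
  nf := by
    have h : (fun a => - Td a - - T a) = fun a => T a - Td a := by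
      funext a
      abel
    rw [h]
    exact F.nf

/-- **The commutation rule on `U j`.** -/
theorem TF.rule (F : TF 𝒟 u W I (U i) (U j) (tm t t' x y) T Td n R) (hij : i ≠ j)
    (hxy : ∀ k, x + y * d k ≠ 0) : ∃ c : L, (∀ w ∈ U j, ∀ l,
      𝒟.q (R l) w = c * 𝒟.q (tm t t' x y l) w) ∧ ∀ a, ∀ w ∈ U j,
    n.δ (Res 𝒟 (tm t t' x y) a w) - Res 𝒟 (tm t t' x y) a (n.δ w) -
      (T a (Res 𝒟 (tm t t' x y) a w) - Res 𝒟 (tm t t' x y) a (T a w)) =
      (2 * c) • Res 𝒟 (tm t t' x y) a w := by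
  obtain ⟨c, -, hc1, hc⟩ := rule0 hG hK B hxy (adj_sk hG.form F.adj) F.nf.mem F.nf.tau F.nf.om
  refine ⟨c j, hc1 j, fun a w hw => ?_⟩
  have h1 := hc j a w hw
  have h2 : Td a w = 0 := Td_ker hG.form F.adm F.adj a (U_perp B hij.symm hw)
  have h3 : Td a (Res 𝒟 (tm t t' x y) a w) = 0 :=
    Td_ker hG.form F.adm F.adj a (U_perp B hij.symm (SUx hG hK B j a hw))
  rwa [LinearMap.sub_apply, LinearMap.sub_apply, h2, h3, sub_zero, sub_zero] at h1

/-- **(N)** on the other blocks -/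
theorem TF.mapUk (F : TF 𝒟 u W I (U i) (U j) (tm t t' x y) T Td n R)
    (hxy : ∀ k, x + y * d k ≠ 0) (hc : Cent 𝒟 (tm t t' x y) W I U d) {k : Fin m} (hki : k ≠ i)
    (hkj : k ≠ j) : ∀ w ∈ U k, n.δ w ∈ U k := by
  have hm := mapU hG hK B hxy hc F.nf (adj_sk hG.form F.adj) (YS hG hK B F.adm F.adj) k
  obtain ⟨c, -, -, hcr⟩ := rule0 hG hK B hxy (adj_sk hG.form F.adj) F.nf.mem F.nf.tau F.nf.om
  obtain ⟨N, hN⟩ := exists_nil hG hK B hxy
  have hwo : ∀ r, wo (Res 𝒟 (tm t t' x y)) I r = (st (Res 𝒟 (tm t t' x y)))^[r] I := by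
    intro r
    induction r with
    | zero => rfl
    | succ r ih => rw [Function.iterate_succ_apply', ← ih]; rfl
  refine words_ind (S := Res 𝒟 (tm t t' x y)) (I := I) (m := n.δ) (sumUx hG hK B hxy k).ge
    ⟨N, by rw [hwo]; exact hN⟩ (fun a v hv => SUx hG hK B k a hv) hm fun w hw a => ?_
  have h1 := hcr k a w hw
  have hY : ∀ w ∈ U k, (T a - Td a) w = 0 := fun w hw => by
    rw [LinearMap.sub_apply, F.adm.ker a w (U_perp B hkj hw),
      Td_ker hG.form F.adm F.adj a (U_perp B hki hw), sub_zero]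
  rw [hY w hw, hY _ (SUx hG hK B k a hw), map_zero, sub_zero, sub_zero] at h1
  rw [h1]
  exact Submodule.smul_mem _ _ (SUx hG hK B k a hw)

/-- **The flow of an admissible triple**, in the form of `Glue7`. -/
theorem TF.toFlow (F : TF 𝒟 u W I (U i) (U j) (tm t t' x y) T Td n R) (hij : i ≠ j)
    (hxy : ∀ k, x + y * d k ≠ 0) (hc : Cent 𝒟 (tm t t' x y) W I U d) {X : Submodule L V}
    (hX : ∀ e ∈ U j ⊓ I, n.δ e ∈ X) :
    Vale.Agent.P182.H58.Glue7.Flow (Res 𝒟 (tm t t' x y)) I (U i) (U j) X T n.δ := by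
  obtain ⟨c, hc1, -⟩ := TF.rule hG hK B F hij hxy
  obtain ⟨N, hN⟩ := exists_nil hG hK B hxy
  exact flow_glue hG hK n (tm_mem B x y) F.nf.mem F.adm
    (fun a v w => adj_symm hG.form (F.adj a) v w) F.nf.tau F.nf.om (sumUx hG hK B hxy i)
    (sumUx hG hK B hxy j) (st_tm_I hG hK B x y) hN (B.ortho i j hij) hc1
    (mapU hG hK B hxy hc F.nf (adj_sk hG.form F.adj) (YS hG hK B F.adm F.adj) j)
    (mapI B F.nf.nW) hX

/-- **(N)** on `U j` -/
theorem TF.mapUj (F : TF 𝒟 u W I (U i) (U j) (tm t t' x y) T Td n R) (hij : i ≠ j)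
    (hxy : ∀ k, x + y * d k ≠ 0) (hc : Cent 𝒟 (tm t t' x y) W I U d) :
    ∀ w ∈ U j, n.δ w ∈ U j ⊔ (U i ⊓ I) :=
  (TF.toFlow hG hK B F hij hxy hc (X := ⊤) fun _ _ => trivial).mem

/-- **(N)** on `U i` -/
theorem TF.mapUi (F : TF 𝒟 u W I (U i) (U j) (tm t t' x y) T Td n R) (hij : i ≠ j)
    (hxy : ∀ k, x + y * d k ≠ 0) (hc : Cent 𝒟 (tm t t' x y) W I U d) :
    ∀ w ∈ U i, n.δ w ∈ U i ⊔ (U j ⊓ I) :=
  TF.mapUj hG hK B (TF.flip hG hK B F hij) hij.symm hxy hc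

/-- **G7b**: two flows of the same triple agree modulo `U j` on `U j` -/
theorem TF.diff {x' y' : L} (F : TF 𝒟 u W I (U i) (U j) (tm t t' x y) T Td n R)
    (F' : TF 𝒟 u W I (U i) (U j) (tm t t' x' y') T Td n' R') (hij : i ≠ j)
    (hxy : ∀ k, x + y * d k ≠ 0) (hc : Cent 𝒟 (tm t t' x y) W I U d)
    (hxy' : ∀ k, x' + y' * d k ≠ 0) (hc' : Cent 𝒟 (tm t t' x' y') W I U d)
    (hi : (x' + y' * d i) ^ 2 = (x + y * d i) ^ 2)
    (hj : (x' + y' * d j) ^ 2 = (x + y * d j) ^ 2) :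
    ∀ w ∈ U j, n.δ w - n'.δ w ∈ U j := by
  obtain ⟨c, -, hr⟩ := TF.rule hG hK B F hij hxy
  obtain ⟨c', -, hr'⟩ := TF.rule hG hK B F' hij hxy'
  have hSi : ∀ a, ∀ w ∈ U i, Res 𝒟 (tm t t' x' y') a w = Res 𝒟 (tm t t' x y) a w :=
    fun a w hw => by rw [Res_tm hG hK B x y hw, Res_tm hG hK B x' y' hw, hi]
  have hSj : ∀ a, ∀ w ∈ U j, Res 𝒟 (tm t t' x' y') a w = Res 𝒟 (tm t t' x y) a w :=
    fun a w hw => by rw [Res_tm hG hK B x y hw, Res_tm hG hK B x' y' hw, hj]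
  have hm := TF.mapUj hG hK B F hij hxy hc
  have hm' := TF.mapUj hG hK B F' hij hxy' hc'
  obtain ⟨N, hN⟩ := exists_nil hG hK B hxy
  have hwo : ∀ r, wo (Res 𝒟 (tm t t' x y)) I r = (st (Res 𝒟 (tm t t' x y)))^[r] I := by
    intro r
    induction r with
    | zero => rfl
    | succ r ih => rw [Function.iterate_succ_apply', ← ih]; rfl
  have hle : U j ⊔ (U i ⊓ I) ≤ U j ⊔ I := sup_le_sup_left inf_le_right _
  refine g7b (S := Res 𝒟 (tm t t' x y)) (I := I) (T := T) (fun a v hv => SUx hG hK B j a hv)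
    (sumUx hG hK B hxy j).ge ⟨N, by rw [hwo]; exact hN⟩ (fun w hw a => ?_) (fun w hw a => ?_)
    (fun w hw => hle (hm w hw)) (fun w hw => hle (hm' w hw))
  · rw [hr a w hw]
    exact Submodule.smul_mem _ _ (SUx hG hK B j a hw)
  · have h1 := hr' a w hw
    have h2 : Res 𝒟 (tm t t' x' y') a (n'.δ w) = Res 𝒟 (tm t t' x y) a (n'.δ w) := by
      obtain ⟨v, hv, z, hz, hvz⟩ := Submodule.mem_sup.mp (hm' w hw)
      rw [← hvz, map_add, map_add, hSj a v hv, hSi a z hz.1]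
    rw [hSj a w hw, h2, hSi a _ (F.adm.range a w)] at h1
    rw [h1]
    exact Submodule.smul_mem _ _ (SUx hG hK B j a hw)

/-- **G7b** on `U i` -/
theorem TF.diff' {x' y' : L} (F : TF 𝒟 u W I (U i) (U j) (tm t t' x y) T Td n R)
    (F' : TF 𝒟 u W I (U i) (U j) (tm t t' x' y') T Td n' R') (hij : i ≠ j)
    (hxy : ∀ k, x + y * d k ≠ 0) (hc : Cent 𝒟 (tm t t' x y) W I U d)
    (hxy' : ∀ k, x' + y' * d k ≠ 0) (hc' : Cent 𝒟 (tm t t' x' y') W I U d)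
    (hi : (x' + y' * d i) ^ 2 = (x + y * d i) ^ 2)
    (hj : (x' + y' * d j) ^ 2 = (x + y * d j) ^ 2) :
    ∀ w ∈ U i, n.δ w - n'.δ w ∈ U i :=
  TF.diff hG hK B (TF.flip hG hK B F hij) (TF.flip hG hK B F' hij) hij.symm hxy hc hxy' hc' hj hi

end ten

end NBlk

end blk

end Vale.Agent.P182.H398
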