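import Vale.Agent.P182.H533.Conn

/-!
# The maps induced by a flow between two blocks, and Nakayama's lemma

`S` is a family of endomorphisms, `I` a stable subspace on which the words are nilpotent, `Ui`,
`Uj` are stable subspaces. A flow `δ` maps `Uj` to `Uj + I`; modulo `Uj` it is a linear map
`N : Uj → I / (I ∩ Uj)`. It has values in `Ii + Uj`, `Ii = I ∩ Ui`, commutes with the words on
`Ij = I ∩ Uj`, and `N (S_s u) = - S_s (Y_s u)` modulo `∑ S_a Ii`, if `S_s u ∈ I`.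
-/

namespace Vale.Agent.P182.H398

open Module Vale.Agent.P182.H533

section defs

variable {L V : Type*} [Field L] [AddCommGroup V] [Module L V]

/-- the words of length `n` applied to `A` -/
def wo (S : Fin 3 → End L V) (A : Submodule L V) : ℕ → Submodule L V
  | 0 => A
  | n + 1 => ⨆ a, (wo S A n).map (S a)

theorem wo_zero (S : Fin 3 → End L V) (A : Submodule L V) : wo S A 0 = A := rfl

theorem wo_succ (S : Fin 3 → End L V) (A : Submodule L V) (n : ℕ) :
    wo S A (n + 1) = ⨆ a, (wo S A n).map (S a) := rfl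

theorem wo_mono {S : Fin 3 → End L V} {A B : Submodule L V} (h : A ≤ B) (n : ℕ) :
    wo S A n ≤ wo S B n := by
  induction n with
  | zero => exact h
  | succ n ih => exact iSup_mono fun s => Submodule.map_mono ih

theorem mem_wo_succ {S : Fin 3 → End L V} {A : Submodule L V} {n : ℕ} {v : V}
    (hv : v ∈ wo S A n) (a : Fin 3) : S a v ∈ wo S A (n + 1) :=
  Submodule.mem_iSup_of_mem a (Submodule.mem_map_of_mem hv)

/-- the stable subspaces of a pair of blocks -/
structure NData (S : Fin 3 → End L V) (I Ui Uj : Submodule L V) : Prop where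
  SI : ∀ a, ∀ v ∈ I, S a v ∈ I
  SUi : ∀ a, ∀ v ∈ Ui, S a v ∈ Ui
  SUj : ∀ a, ∀ v ∈ Uj, S a v ∈ Uj
  span : Uj ≤ ⨆ a, Uj.map (S a)
  nil : ∃ n, wo S I n = ⊥

/-- a flow between the blocks -/
structure NFlow (S : Fin 3 → End L V) (I Ui Uj : Submodule L V) (d : L → L) (δ : V →+ V)
    (Y : Fin 3 → End L V) : Prop where
  smul : ∀ a v, δ (a • v) = d a • v + a • δ v
  comm : ∀ a, ∀ u ∈ Uj, δ (S a u) - S a (δ u) - (Y a (S a u) - S a (Y a u)) ∈ Uj
  maps : ∀ u ∈ Uj, δ u ∈ Uj ⊔ I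
  kill : ∀ a, ∀ e ∈ I, Y a e = 0
  brac : ∀ a, ∀ u ∈ Uj, Y a (S a u) - S a (Y a u) ∈ I ⊓ Ui

/-- the images of `Ii` -/
def nI (S : Fin 3 → End L V) (I Ui : Submodule L V) : Submodule L V := wo S (I ⊓ Ui) 1

end defs

section flow

variable {L V : Type*} [Field L] [AddCommGroup V] [Module L V] {S : Fin 3 → End L V}
  {I Ui Uj : Submodule L V} {d : L → L} {δ : V →+ V} {Y : Fin 3 → End L V}

theorem NData.SIi (h : NData S I Ui Uj) (a : Fin 3) {v : V} (hv : v ∈ I ⊓ Ui) :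
    S a v ∈ I ⊓ Ui := ⟨h.SI a v hv.1, h.SUi a v hv.2⟩

theorem NData.SIj (h : NData S I Ui Uj) (a : Fin 3) {v : V} (hv : v ∈ I ⊓ Uj) :
    S a v ∈ I ⊓ Uj := ⟨h.SI a v hv.1, h.SUj a v hv.2⟩

theorem NData.nI_le (h : NData S I Ui Uj) : nI S I Ui ≤ I ⊓ Ui := by
  unfold nI
  rw [wo_succ]
  refine iSup_le fun a => ?_
  rintro _ ⟨v, hv, rfl⟩
  exact h.SIi a hv

theorem mem_nI (a : Fin 3) {v : V} (hv : v ∈ I ⊓ Ui) : S a v ∈ nI S I Ui :=
  mem_wo_succ (n := 0) hv a

/-- **The flow maps `Uj` to `Uj + Ii`.** -/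
theorem NFlow.maps_Ii (h : NData S I Ui Uj) (f : NFlow S I Ui Uj d δ Y) {u : V} (hu : u ∈ Uj) :
    δ u ∈ Uj ⊔ (I ⊓ Ui) := by
  obtain ⟨N, hN⟩ := h.nil
  have key : ∀ n, ∀ u ∈ Uj, δ u ∈ Uj ⊔ (I ⊓ Ui) ⊔ wo S I n := by
    intro n
    induction n with
    | zero =>
      intro u hu
      have h1 := f.maps u hu
      have h2 : Uj ⊔ I ≤ Uj ⊔ (I ⊓ Ui) ⊔ wo S I 0 :=
        sup_le (le_sup_left.trans le_sup_left) le_sup_right
      exact h2 h1
    | succ n ih =>
      intro u hu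
      have h3 := h.span hu
      refine Submodule.iSup_induction (fun a => Uj.map (S a))
        (motive := fun u => δ u ∈ Uj ⊔ (I ⊓ Ui) ⊔ wo S I (n + 1)) h3 ?_ ?_ ?_
      · intro a x hx
        obtain ⟨u', hu', rfl⟩ := hx
        have h4 := ih u' hu'
        obtain ⟨y, hy, w, hw, h5⟩ := Submodule.mem_sup.mp h4
        obtain ⟨u1, hu1, i, hi, rfl⟩ := Submodule.mem_sup.mp hy
        have h6 := f.comm a u' hu'
        have h7 := f.brac a u' hu'
        have h8 : δ (S a u') = (δ (S a u') - S a (δ u') - (Y a (S a u') - S a (Y a u'))) +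
            S a u1 + ((Y a (S a u') - S a (Y a u')) + S a i) + S a w := by
          rw [← h5]
          simp only [map_add]
          abel
        rw [h8]
        refine Submodule.add_mem _ (Submodule.add_mem _ ?_ ?_) ?_
        · exact (le_sup_left.trans le_sup_left : Uj ≤ _)
            (Submodule.add_mem _ h6 (h.SUj a u1 hu1))
        · exact (le_sup_right.trans le_sup_left : I ⊓ Ui ≤ _)
            (Submodule.add_mem _ h7 (h.SIi a hi))
        · exact (le_sup_right : wo S I (n + 1) ≤ _) (mem_wo_succ hw a)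
      · rw [map_zero]
        exact Submodule.zero_mem _
      · intro x y hx hy
        rw [map_add]
        exact Submodule.add_mem _ hx hy
  have h1 := key N u hu
  rwa [hN, sup_bot_eq] at h1

/-- **The flow commutes with the words on `Ij`.** -/
theorem NFlow.comm_Ij (h : NData S I Ui Uj) (f : NFlow S I Ui Uj d δ Y) (a : Fin 3) {e : V}
    (he : e ∈ I ⊓ Uj) : δ (S a e) - S a (δ e) ∈ Uj := by
  have h1 := f.comm a e he.2
  rwa [f.kill a e he.1, f.kill a _ (h.SI a e he.1), map_zero, sub_self, sub_zero] at h1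

/-- **The main formula.** -/
theorem NFlow.main (h : NData S I Ui Uj) (f : NFlow S I Ui Uj d δ Y) (s : Fin 3) {u : V}
    (hu : u ∈ Uj) (hs : S s u ∈ I) : δ (S s u) + S s (Y s u) ∈ nI S I Ui ⊔ Uj := by
  have h1 := f.comm s u hu
  rw [f.kill s _ hs, zero_sub, sub_neg_eq_add] at h1
  obtain ⟨u1, hu1, i, hi, h2⟩ := Submodule.mem_sup.mp (f.maps_Ii h hu)
  have h3 : δ (S s u) + S s (Y s u) =
      S s i + ((δ (S s u) - S s (δ u) + S s (Y s u)) + S s u1) := by
    rw [← h2, map_add]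
    abel
  rw [h3]
  exact Submodule.add_mem_sup (mem_nI s hi) (Submodule.add_mem _ h1 (h.SUj s u1 hu1))

/-- the main formula, normalised -/
theorem NFlow.exists_e (h : NData S I Ui Uj) (f : NFlow S I Ui Uj d δ Y) (s : Fin 3) {u : V}
    (hu : u ∈ Uj) (hs : S s u ∈ I) {κ : L} (hκ : κ ≠ 0) {a : V}
    (hY : Y s u - κ • a ∈ I ⊓ Ui) :
    ∃ e ∈ I ⊓ Uj, δ e - S s a ∈ nI S I Ui ⊔ Uj := by
  refine ⟨(-κ⁻¹) • S s u, ⟨Submodule.smul_mem _ _ hs, Submodule.smul_mem _ _ (h.SUj s u hu)⟩, ?_⟩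
  have h1 := f.main h s hu hs
  have h2 := mem_nI (S := S) s hY
  have h3 : δ ((-κ⁻¹) • S s u) - S s a = d (-κ⁻¹) • S s u +
      (-κ⁻¹) • (δ (S s u) + S s (Y s u)) + κ⁻¹ • S s (Y s u - κ • a) := by
    rw [f.smul, map_sub, map_smul, smul_sub, smul_smul, inv_mul_cancel₀ hκ, one_smul]
    module
  rw [h3]
  refine Submodule.add_mem _ (Submodule.add_mem _ ?_ ?_) ?_
  · exact (le_sup_right : Uj ≤ _) (Submodule.smul_mem _ _ (h.SUj s u hu))
  · exact Submodule.smul_mem _ _ h1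
  · exact (le_sup_left : nI S I Ui ≤ _) (Submodule.smul_mem _ _ h2)

/-- **Nakayama's lemma** -/
theorem nakayama {A Q : Submodule L V} (hQ : ∀ a, ∀ v ∈ Q, S a v ∈ Q)
    (hnil : ∃ n, wo S A n = ⊥) (h : A ≤ Q ⊔ wo S A 1) :
    A ≤ Q := by
  obtain ⟨N, hN⟩ := hnil
  have key : ∀ n, A ≤ Q ⊔ wo S A n := by
    intro n
    induction n with
    | zero => exact le_sup_right
    | succ n ih =>
      refine h.trans (sup_le le_sup_left ?_)
      rw [wo_succ]
      refine iSup_le fun a => ?_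
      rintro _ ⟨v, hv, rfl⟩
      obtain ⟨x, hx, y, hy, rfl⟩ := Submodule.mem_sup.mp (ih hv)
      rw [map_add]
      exact Submodule.add_mem_sup (hQ a x hx) (mem_wo_succ hy a)
  have h1 := key N
  rwa [hN, sup_bot_eq] at h1

/-- **The induction principle**: the values of the flows on `Ij` exhaust `Ii`. -/
theorem flow_exhaust (h : NData S I Ui Uj) (Fl : (V →+ V) → Prop)
    (hFl : ∀ δ, Fl δ → ∃ d Y, NFlow S I Ui Uj d δ Y) (G : Set V) (hG : ∀ g ∈ G, g ∈ I ⊓ Ui)
    (hgen : I ⊓ Ui ≤ Submodule.span L G ⊔ nI S I Ui)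
    (hex : ∀ g ∈ G, ∃ δ, Fl δ ∧ ∃ e ∈ I ⊓ Uj, δ e - g ∈ nI S I Ui ⊔ Uj)
    {X : Submodule L V} (hX0 : I ⊓ Ui ⊓ Uj ≤ X)
    (hX : ∀ δ, Fl δ → ∀ e ∈ I ⊓ Uj, ∀ w ∈ I ⊓ Ui, δ e - w ∈ Uj → w ∈ X) : I ⊓ Ui ≤ X := by
  set G' : Set V := {w | w ∈ I ⊓ Ui ∧ ∃ δ, Fl δ ∧ ∃ e ∈ I ⊓ Uj, δ e - w ∈ Uj} with hG'
  set Q : Submodule L V := Submodule.span L G' ⊔ (I ⊓ Ui ⊓ Uj) with hQd
  have hQX : Q ≤ X := by
    refine sup_le (Submodule.span_le.mpr ?_) hX0
    rintro w ⟨hw, δ, hδ, e, he, h1⟩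
    exact hX δ hδ e he w hw h1
  refine le_trans ?_ hQX
  refine nakayama (S := S) ?_ ?_ ?_
  · intro a v hv
    obtain ⟨x, hx, y, hy, rfl⟩ := Submodule.mem_sup.mp hv
    rw [map_add]
    refine Submodule.add_mem_sup ?_ ⟨h.SIi a hy.1, h.SUj a y hy.2⟩
    refine Submodule.span_induction (p := fun x _ => S a x ∈ Submodule.span L G') ?_ ?_ ?_ ?_ hx
    · rintro w ⟨hw, δ, hδ, e, he, h1⟩
      obtain ⟨d, Y, f⟩ := hFl δ hδ
      refine Submodule.subset_span ⟨h.SIi a hw, δ, hδ, S a e, h.SIj a he, ?_⟩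
      have h2 : δ (S a e) - S a w = (δ (S a e) - S a (δ e)) + S a (δ e - w) := by
        rw [map_sub]
        abel
      rw [h2]
      exact Submodule.add_mem _ (f.comm_Ij h a he) (h.SUj a _ h1)
    · rw [map_zero]
      exact Submodule.zero_mem _
    · intro x y _ _ hx hy
      rw [map_add]
      exact Submodule.add_mem _ hx hy
    · intro c x _ hx
      rw [map_smul]
      exact Submodule.smul_mem _ _ hx
  · obtain ⟨n, hn⟩ := h.nil
    exact ⟨n, le_bot_iff.mp ((wo_mono inf_le_left n).trans hn.le)⟩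
  · refine hgen.trans (sup_le ?_ le_sup_right)
    refine Submodule.span_le.mpr fun g hg => ?_
    obtain ⟨δ, hδ, e, he, h1⟩ := hex g hg
    obtain ⟨d, Y, f⟩ := hFl δ hδ
    obtain ⟨u, hu, w, hw, h2⟩ := Submodule.mem_sup.mp (f.maps_Ii h he.2)
    obtain ⟨m, hm, u', hu', h3⟩ := Submodule.mem_sup.mp h1
    have hwG : w ∈ G' := by
      refine ⟨hw, δ, hδ, e, he, ?_⟩
      rw [← h2, add_sub_cancel_right]
      exact hu
    have h4 : g = w - (u' - u) - m := by
      have h5 : g = δ e - (m + u') := by rw [h3]; abel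
      rw [h5, ← h2]
      abel
    have h6 : u' - u ∈ I ⊓ Ui ⊓ Uj := by
      refine ⟨?_, Submodule.sub_mem _ hu' hu⟩
      have h7 : u' - u = w - g - m := by rw [h4]; abel
      rw [h7]
      exact Submodule.sub_mem _ (Submodule.sub_mem _ hw (hG g hg)) (h.nI_le hm)
    rw [h4]
    refine Submodule.sub_mem _ ?_ ((le_sup_right : wo S (I ⊓ Ui) 1 ≤ _) hm)
    refine (le_sup_left : Q ≤ _) ?_
    exact Submodule.sub_mem _ ((le_sup_left : Submodule.span L G' ≤ Q)
      (Submodule.subset_span hwG)) ((le_sup_right : I ⊓ Ui ⊓ Uj ≤ Q) h6)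

end flow

section core

variable {L V : Type*} [Field L] [AddCommGroup V] [Module L V] {S : Fin 3 → End L V}
  {q : V →ₗ[L] V →ₗ[L] L}

/-- the words are nilpotent on the radical of the core -/
theorem wo_I (hq : IsForm q) (hS : ∀ s, IsSA q (S s)) (C : Core q S) : wo S C.I C.N = ⊥ := by
  have key : ∀ n m, n + m = C.N → ∀ v ∈ wo S C.I n, ∀ w ∈ words S m, q v w = 0 := by
    intro n
    induction n with
    | zero =>
      intro m hm v hv w hw
      rw [zero_add] at hm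
      rw [hm, ← C.hN] at hw
      exact C.I_le_perp hv w hw
    | succ n ih =>
      intro m hm v hv w hw
      rw [wo_succ] at hv
      refine Submodule.iSup_induction (fun a => (wo S C.I n).map (S a))
        (motive := fun v => q v w = 0) hv ?_ ?_ ?_
      · rintro a _ ⟨x, hx, rfl⟩
        rw [hS a]
        refine ih (m + 1) (by omega) x hx _ ?_
        rw [words_succ]
        exact Submodule.mem_iSup_of_mem a (Submodule.mem_map_of_mem hw)
      · rw [map_zero, LinearMap.zero_apply]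
      · intro x y hx hy
        rw [map_add, LinearMap.add_apply, hx, hy, add_zero]
  rw [eq_bot_iff]
  intro v hv
  exact (Submodule.mem_bot L).mpr (hq.nondeg v fun w => key C.N 0 (by omega) v hv w trivial)

end core

end Vale.Agent.P182.H398
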