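import Vale.Agent.P182.H398.Inst
import Vale.Agent.P182.H58.Glue7

/-!
# (N): the flows preserve `W`, `I` and the blocks of `V1`

Row G7, part (b): a connection `n` preserving `W` induces a connection on the core; if
`n (τ l) = Y (τ l) + R l` with `[Y a, S a] W ≤ I`, the derivative of the operators of the core is
known, the idempotents commuting with everything are constant, and `n` preserves the blocks modulo
`I`.
-/

namespace Vale.Agent.P182.H398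

open Module Matrix Vale.Agent.P182.H533 Vale.Agent.P182.B1 Vale.Agent.P182.H578
  Vale.Agent.P182.H922 Vale.Agent.P182.H588 Vale.Agent.P182.H58.Glue7

section idem

variable {L E ι : Type*} [Field L] [AddCommGroup E] [Module L E] {q : E →ₗ[L] E →ₗ[L] L}

/-- an idempotent commuting with `X`, if `X = e X + X e`, is killed -/
theorem idem_zero {R : Type*} [Ring R] {e X : R} (he : e * e = e) (hX : X = X * e + e * X)
    (hc : X * e = e * X) : X = 0 := by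
  have h1 : e * X = e * X + e * X := by
    conv_lhs => rw [hX, mul_add, hc, ← mul_assoc, he]
  have h2 : e * X = 0 := add_eq_left.mp h1.symm
  rw [hX, hc, h2, add_zero]

/-- **The idempotents are constant.** -/
theorem brk_idem (n : H533.Conn q) {A B : ι → End L E} (hAB : ∀ a, brk n (A a) = B a)
    {e : End L E} (he : e * e = e) (heA : ∀ a, e * A a = A a * e) (heB : ∀ a, e * B a = B a * e)
    (heSA : IsSA q e) (hc : ∀ M, IsSA q M → (∀ a, M * A a = A a * M) → M * e = e * M) :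
    brk n e = 0 := by
  have h1 : ∀ a, brk n e * A a = A a * brk n e := by
    intro a
    have h2 := congrArg (brk n) (heA a)
    rw [brk_mul, brk_mul, hAB, heB, add_comm] at h2
    exact add_left_cancel h2
  have h3 := hc _ (brk_SA n heSA) h1
  refine idem_zero he ?_ h3
  conv_lhs => rw [← he, brk_mul]

end idem

section stab

variable {L V J : Type*} [Field L] [AddCommGroup V] [Module L V]
  [Fintype J] [DecidableEq J] {𝒟 : Cfg L V J} {t : J → V} {C : Core 𝒟.q (Res 𝒟 t)}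

omit [Fintype J] [DecidableEq J] in
/-- a connection preserving `W` preserves the radical of `W` -/
theorem conn_rad {q : V →ₗ[L] V →ₗ[L] L} {W : Submodule L V} (n : H533.Conn q)
    (hnW : ∀ w ∈ W, n.δ w ∈ W) : ∀ w ∈ W ⊓ perp q W, n.δ w ∈ W ⊓ perp q W := by
  intro v hv
  refine ⟨hnW v hv.1, fun w hw => ?_⟩
  have h1 := n.metric v w
  rw [hv.2 w hw, map_zero, hv.2 _ (hnW w hw), add_zero] at h1
  exact h1.symm

theorem conn_I (n : H533.Conn 𝒟.q) (hnW : ∀ w ∈ C.W, n.δ w ∈ C.W) :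
    ∀ w ∈ C.I, n.δ w ∈ C.I := conn_rad n hnW

variable [FiniteDimensional L V]

theorem P_I (hG : 𝒟.Good) {v : V} (hv : v ∈ C.I) : C.P hG.form v = 0 :=
  C.P_eq_zero hG.form hv.2

theorem P_congr (hG : 𝒟.Good) {v w : V} (h : v - w ∈ C.I) :
    C.P hG.form v = C.P hG.form w := by
  rw [← sub_eq_zero, ← map_sub, P_I hG h]

/-- the projection commutes with the connection, on `W` -/
theorem conn_P (hG : 𝒟.Good) (n : H533.Conn 𝒟.q) (hnW : ∀ w ∈ C.W, n.δ w ∈ C.W) {v : V}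
    (hv : v ∈ C.W) : C.P hG.form (n.δ v) = (connCore hG C n).δ (C.P hG.form v) := by
  rw [connCore_apply]
  refine P_congr hG ?_
  rw [← map_sub]
  exact conn_I n hnW _ (C.sub_P_mem_I hG.form hv)

/-- the derivative of the operators of the core -/
theorem brk_res (hG : 𝒟.Good) (n : H533.Conn 𝒟.q) (hnW : ∀ w ∈ C.W, n.δ w ∈ C.W)
    {X Z : End L V} (hXW : ∀ w ∈ C.W, X w ∈ C.W) (hXI : ∀ w ∈ C.I, X w ∈ C.I)
    (h : ∀ w ∈ C.W, n.δ (X w) - X (n.δ w) - Z w ∈ C.I) :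
    brk (connCore hG C n) (C.res hG.form X) = C.res hG.form Z := by
  ext v
  congr 1
  have hv := C.V1_le v.2
  rw [brk_apply, C.res_apply, C.res_apply, C.res_apply, ← conn_P hG n hnW (hXW _ hv),
    connCore_apply]
  have h1 : C.P hG.form (X (C.P hG.form (n.δ v) : V)) = C.P hG.form (X (n.δ v)) := by
    refine P_congr hG ?_
    rw [← map_sub, ← neg_sub, map_neg]
    exact Submodule.neg_mem _ (hXI _ (C.sub_P_mem_I hG.form (hnW _ hv)))
  rw [h1, ← map_sub]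
  exact P_congr hG (h _ hv)

/-- the commutation rule gives the derivative of the operators of the core -/
theorem brk_flow (hG : 𝒟.Good) (n : H533.Conn 𝒟.q) (hnW : ∀ w ∈ C.W, n.δ w ∈ C.W)
    {Y : Fin 3 → End L V} (hY : ∀ a, IsSk 𝒟.q (Y a)) {τ R : J → V}
    (h1 : ∀ l, n.δ (τ l) = Y (𝒟.arm l) (τ l) + R l)
    (h2 : ∀ l, n.δ (𝒟.om τ l) = Y (𝒟.arm l) (𝒟.om τ l) + 𝒟.om R l)
    (hW : ∀ a, ∀ w ∈ C.W, Res 𝒟 τ a w ∈ C.W) (hI : ∀ a, ∀ w ∈ C.I, Res 𝒟 τ a w ∈ C.I)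
    (hYS : ∀ a, ∀ w ∈ C.W, Y a (Res 𝒟 τ a w) - Res 𝒟 τ a (Y a w) ∈ C.I) (a : Fin 3) :
    brk (connCore hG C n) (C.res hG.form (Res 𝒟 τ a)) =
      C.res hG.form (opr 𝒟.q (Tt L τ) (Gm 𝒟.arm 𝒟.Ω a) (Tt L R)) +
        C.res hG.form (opr 𝒟.q (Tt L R) (Gm 𝒟.arm 𝒟.Ω a) (Tt L τ)) := by
  rw [← C.res_add]
  refine brk_res hG n hnW (hW a) (hI a) fun w hw => ?_
  have h3 := flow_comm hG n hY h1 h2 a w
  rw [LinearMap.add_apply, ← h3]
  have h4 := hYS a w hw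
  convert h4 using 1
  abel

/-- the connection preserves the blocks of the core -/
theorem flow_sub (hG : 𝒟.Good) (n : H533.Conn 𝒟.q) (hnW : ∀ w ∈ C.W, n.δ w ∈ C.W)
    {e : End L C.V1} (he : brk (connCore hG C n) e = 0) {u : V} (hu : u ∈ C.W)
    (heu : e (C.P hG.form u) = C.P hG.form u) :
    e (C.P hG.form (n.δ u)) = C.P hG.form (n.δ u) := by
  rw [conn_P hG n hnW hu]
  have h1 := brk_eq (connCore hG C n) e (C.P hG.form u)
  rw [he, LinearMap.zero_apply, zero_add, heu] at h1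
  exact h1.symm

/-- **The connection preserves the blocks, modulo `I`.** -/
theorem flow_block (hG : 𝒟.Good) (n : H533.Conn 𝒟.q) (hnW : ∀ w ∈ C.W, n.δ w ∈ C.W)
    {e : End L C.V1} (he : brk (connCore hG C n) e = 0) {U : Submodule L V} (hUW : U ≤ C.W)
    (hUe : ∀ u ∈ U, e (C.P hG.form u) = C.P hG.form u)
    (heU : ∀ v : C.V1, e v = v → ∃ u ∈ U, C.P hG.form u = v) :
    ∀ u ∈ U, n.δ u ∈ U ⊔ C.I := by
  intro u hu
  obtain ⟨w, hw, h1⟩ := heU _ (flow_sub hG n hnW he (hUW hu) (hUe u hu))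
  have h2 : n.δ u - w ∈ C.I := by
    have h3 := C.sub_P_mem_I hG.form (Submodule.sub_mem _ (hnW u (hUW hu)) (hUW hw))
    rw [map_sub, h1, sub_self, Submodule.coe_zero, sub_zero] at h3
    exact h3
  have h3 : n.δ u = w + (n.δ u - w) := by abel
  rw [h3]
  exact Submodule.add_mem_sup hw h2

end stab

section glue

variable {L V J : Type*} [Field L] [AddCommGroup V] [Module L V]
  [Fintype J] [DecidableEq J] {𝒟 : Cfg L V J} {u : J → L}

/-- the commutation rule on a block, with the constant of `R` -/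
theorem flow_hn' (hG : 𝒟.Good) (hK : KRel 𝒟.arm 𝒟.q 𝒟.Ω (Tt L '' (Ku 𝒟 u : Set (J → V))))
    (n : H533.Conn 𝒟.q) {Y : Fin 3 → End L V}
    (hY : ∀ a, IsSk 𝒟.q (Y a)) {τ R : J → V} (hτ : τ ∈ Ku 𝒟 u) (hR : R ∈ Ku 𝒟 u)
    (h1 : ∀ l, n.δ (τ l) = Y (𝒟.arm l) (τ l) + R l)
    (h2 : ∀ l, n.δ (𝒟.om τ l) = Y (𝒟.arm l) (𝒟.om τ l) + 𝒟.om R l)
    {c : L} {v : V} (h : ∀ l, 𝒟.q (R l) v = c * 𝒟.q (τ l) v) (a : Fin 3) :
    n.δ (Res 𝒟 τ a v) - Res 𝒟 τ a (n.δ v) - (Y a (Res 𝒟 τ a v) - Res 𝒟 τ a (Y a v)) =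
      (2 * c) • Res 𝒟 τ a v := by
  rw [flow_comm hG n hY h1 h2, hK.swap hG.form hG.skew ⟨R, hR, rfl⟩ ⟨τ, hτ, rfl⟩ a,
    opr_of_rel h]
  have h4 : opr 𝒟.q (Tt L τ) (Gm 𝒟.arm 𝒟.Ω a) (Tt L τ) v = Res 𝒟 τ a v := rfl
  rw [h4]
  module

omit [Fintype J] [DecidableEq J] in
/-- `T - T†` has `[Y a, S a] W ≤ I` for admissible `T` -/
theorem adm_YS {q : V →ₗ[L] V →ₗ[L] L} (hq : IsForm q) {S : Fin 3 → End L V}
    (hS : ∀ a, IsSA q (S a)) {W I Ui Uj : Submodule L V} (hIW : ∀ x ∈ I, ∀ w ∈ W, q x w = 0)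
    (hWI : ∀ x ∈ W, (∀ w ∈ W, q x w = 0) → x ∈ I)
    (hSW : ∀ a, ∀ w ∈ W, S a w ∈ W)
    (hdec : ∀ w ∈ W, ∃ x ∈ Uj, w - x ∈ perp q Uj)
    (hSp : ∀ a, ∀ w ∈ perp q Uj, S a w ∈ perp q Uj)
    {T T' : Fin 3 → End L V} (hT : Adm q S I Ui Uj T) (hT' : ∀ a x y, q (T' a x) y = q x (T a y))
    (hTW : ∀ a v, T' a v ∈ W) (a : Fin 3) {w : V} (hw : w ∈ W) :
    (T a - T' a) (S a w) - S a ((T a - T' a) w) ∈ I := by
  -- the first half
  have hk : ∀ w ∈ W, T a (S a w) - S a (T a w) ∈ I := by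
    intro w hw
    obtain ⟨x, hx, hwx⟩ := hdec w hw
    have h1 : T a (S a (w - x)) - S a (T a (w - x)) = 0 := by
      rw [hT.ker a _ hwx, hT.ker a _ (hSp a _ hwx), map_zero, sub_zero]
    have h2 : T a (S a w) - S a (T a w) = -(S a (T a x) - T a (S a x)) := by
      rw [map_sub, map_sub, map_sub, map_sub, sub_sub_sub_comm, sub_eq_zero] at h1
      rw [h1]
      abel
    rw [h2]
    exact I.neg_mem (hT.comm a x hx)
  have hk' : T' a (S a w) - S a (T' a w) ∈ I := by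
    refine hWI _ (W.sub_mem (hTW a _) (hSW a _ (hTW a w))) fun v hv => ?_
    have e1 : q (S a (T' a w)) v = q w (T a (S a v)) := by rw [hS, hT']
    rw [map_sub, LinearMap.sub_apply, hT', hS, e1, ← map_sub, hq.symm, ← neg_sub, map_neg,
      LinearMap.neg_apply, neg_eq_zero]
    exact hIW _ (hk v hv) w hw
  have h3 : (T a - T' a) (S a w) - S a ((T a - T' a) w) =
      (T a (S a w) - S a (T a w)) - (T' a (S a w) - S a (T' a w)) := by
    rw [LinearMap.sub_apply, LinearMap.sub_apply, map_sub]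
    abel
  rw [h3]
  exact I.sub_mem (hk w hw) hk'

/-- **The flow of an admissible triple**, from the facts about the connection. -/
theorem flow_glue (hG : 𝒟.Good) (hK : KRel 𝒟.arm 𝒟.q 𝒟.Ω (Tt L '' (Ku 𝒟 u : Set (J → V))))
    (n : H533.Conn 𝒟.q) {τ R : J → V} (hτ : τ ∈ Ku 𝒟 u) (hR : R ∈ Ku 𝒟 u)
    {T T' : Fin 3 → End L V} {I Ui Uj X : Submodule L V} (hT : Adm 𝒟.q (Res 𝒟 τ) I Ui Uj T)
    (hT' : ∀ a x y, 𝒟.q (T' a x) y = 𝒟.q x (T a y))
    (h1 : ∀ l, n.δ (τ l) = (T (𝒟.arm l) - T' (𝒟.arm l)) (τ l) + R l)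
    (h2 : ∀ l, n.δ (𝒟.om τ l) = (T (𝒟.arm l) - T' (𝒟.arm l)) (𝒟.om τ l) + 𝒟.om R l)
    (hi : st (Res 𝒟 τ) Ui = Ui) (hj : st (Res 𝒟 τ) Uj = Uj) (hI : st (Res 𝒟 τ) I ≤ I)
    {N : ℕ} (hN : (st (Res 𝒟 τ))^[N] I = ⊥) (orth : ∀ x ∈ Ui, ∀ v ∈ Uj, 𝒟.q x v = 0)
    {c : L} (hc : ∀ v ∈ Uj, ∀ l, 𝒟.q (R l) v = c * 𝒟.q (τ l) v)
    (hm : ∀ v ∈ Uj, n.δ v ∈ Uj ⊔ I) (hnI : ∀ v ∈ I, n.δ v ∈ I)
    (hX : ∀ e ∈ Uj ⊓ I, n.δ e ∈ X) :
    Flow (Res 𝒟 τ) I Ui Uj X T n.δ := by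
  have hY : ∀ a, IsSk 𝒟.q (T a - T' a) := fun a x y => by
    rw [LinearMap.sub_apply, LinearMap.sub_apply, map_sub, map_sub, LinearMap.sub_apply, hT',
      hG.form.symm x (T' a y), hT', hG.form.symm y (T a x)]
    ring
  have hUi : ∀ a, ∀ v ∈ Ui, Res 𝒟 τ a v ∈ Ui := fun a v hv => hi ▸ mem_st (S := Res 𝒟 τ) a hv
  have hUj : ∀ a, ∀ v ∈ Uj, Res 𝒟 τ a v ∈ Uj := fun a v hv => hj ▸ mem_st (S := Res 𝒟 τ) a hv
  have hII : ∀ a, ∀ v ∈ I, Res 𝒟 τ a v ∈ I := fun a v hv => hI (mem_st (S := Res 𝒟 τ) a hv)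
  have hk : ∀ a, ∀ v ∈ Uj, T' a v = 0 := fun a v hv =>
    adj_kills hG.form (hT.range a) (hT' a) (fun x hx y hy => by
      rw [hG.form.symm]; exact orth y hy x hx) hv
  have rule : ∀ v ∈ Uj, ∀ a, n.δ (Res 𝒟 τ a v) - Res 𝒟 τ a (n.δ v) -
      (T a (Res 𝒟 τ a v) - Res 𝒟 τ a (T a v)) ∈ Uj := by
    intro v hv a
    have h3 := flow_hn' hG hK n hY hτ hR h1 h2 (hc v hv) a
    rw [LinearMap.sub_apply, LinearMap.sub_apply, hk a v hv, hk a _ (hUj a v hv), sub_zero,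
      sub_zero] at h3
    rw [h3]
    exact Uj.smul_mem _ (hUj a v hv)
  refine ⟨fun a v hv => rule v hv a, ?_, fun e he => hnI e he.2, hX⟩
  have hwo : ∀ m, wo (Res 𝒟 τ) I m = (st (Res 𝒟 τ))^[m] I := by
    intro m
    induction m with
    | zero => rfl
    | succ m ih => rw [Function.iterate_succ_apply', ← ih]; rfl
  exact g7a hII hUi hUj hj.ge ⟨N, by rw [hwo]; exact hN⟩
    (fun a v _ => hT.range a v) hT.comm rule hm

end glue

end Vale.Agent.P182.H398
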